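import Crest.Agent.R115.Defs

-- ▼ part R115/Sheets
section

/-!
Task T9: combinatorics of `del`, `kap`, `nam`, `tra`.
-/

set_option autoImplicit false

namespace Crest.Agent.R115

variable {S S' : Type} {h : ℕ}

theorem del_self (κ : K h) : del κ κ = 0 := by
  simp [del]

lemma partner_comm (x y : Arm ⊕ Bool) : partner x y ↔ partner y x := by
  rcases x with a | c <;> rcases y with b | d
  · simp only [partner]
    constructor
    · rintro rfl; simp
    · rintro rfl; simp
  · simp [partner]
  · simp [partner]
  · simp [partner]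

lemma del_comm (κ b : K h) : del κ b = del b κ := by
  unfold del
  by_cases h1 : κ.1 = b.1
  · rw [if_pos h1, if_pos h1.symm, Nat.dist_comm]
  · have h1' : ¬ b.1 = κ.1 := fun h' => h1 h'.symm
    by_cases h2 : partner κ.1 b.1
    · have h2' : partner b.1 κ.1 := (partner_comm _ _).1 h2
      simp only [h1, h1', h2, h2', if_false, if_true]
      omega
    · have h2' : ¬ partner b.1 κ.1 := fun h' => h2 ((partner_comm _ _).1 h')
      simp only [h1, h1', h2, h2', if_false]
      omega

/-- positions after a swap differ by at most one -/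
lemma swap_val_le (i : Fin h) (j : Fin (h + 1)) :
    ((Equiv.swap i.castSucc i.succ j : Fin (h + 1)) : ℕ) ≤ j + 1 ∧
      (j : ℕ) ≤ (Equiv.swap i.castSucc i.succ j : Fin (h + 1)) + 1 := by
  by_cases h1 : j = i.castSucc
  · subst h1
    rw [Equiv.swap_apply_left]
    simp only [Fin.val_castSucc, Fin.val_succ]
    omega
  · by_cases h2 : j = i.succ
    · subst h2
      rw [Equiv.swap_apply_right]
      simp only [Fin.val_castSucc, Fin.val_succ]
      omega
    · rw [Equiv.swap_apply_of_ne_of_ne h1 h2]
      omega

lemma del_pos (κ : K h) (c : Arm ⊕ Bool) (j j' : Fin (h + 1))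
    (h1 : (j' : ℕ) ≤ j + 1) (h2 : (j : ℕ) ≤ j' + 1) :
    del κ (c, j') ≤ del κ (c, j) + 1 := by
  have hj := j.2
  have hj' := j'.2
  have hk := κ.2.2
  unfold del
  simp only
  split_ifs
  · simp only [Nat.dist]
    omega
  · omega
  · omega

lemma del_zero (κ : K h) (c : Arm ⊕ Bool) : del κ (c, 0) = κ.2 := by
  have hk := κ.2.2
  unfold del
  simp only [Fin.val_zero]
  split_ifs
  · simp [Nat.dist]
  · omega
  · omega

lemma del_last (κ : K h) (a : Arm) :
    del κ (Sum.inl a, Fin.last h) =
      if κ.1 = Sum.inl a ∨ κ.1 = Sum.inl (bar a) then h - κ.2 else κ.2 + h := by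
  have hk := κ.2.2
  rcases κ with ⟨c, k⟩
  unfold del
  simp only [Fin.val_last]
  simp only at hk
  rcases c with c | c
  · by_cases h1 : c = a
    · subst h1
      simp only [if_true, true_or, Nat.dist]
      omega
    · by_cases h2 : c = bar a
      · subst h2
        have : ¬ (Sum.inl (bar a) : Arm ⊕ Bool) = Sum.inl a := by
          intro h; exact h1 (Sum.inl.inj h)
        rw [if_neg this]
        simp only [partner, bar_bar, if_true, or_true]
        omega
      · have h3 : ¬ (Sum.inl c : Arm ⊕ Bool) = Sum.inl a := fun h => h1 (Sum.inl.inj h)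
        have h4 : ¬ (Sum.inl c : Arm ⊕ Bool) = Sum.inl (bar a) := fun h => h2 (Sum.inl.inj h)
        have h5 : ¬ a = bar c := by
          rintro rfl
          exact h2 (by simp)
        simp only [h3, h4, if_false, partner, h5, or_self]
  · simp [partner]

/-- `del` changes by at most one when the second argument moves by a step -/
theorem del_step_right (α : Arm → Equiv.Perm S) (μ : S → Bool) (w : Step h) (v : Z S h) (κ : K h) :
    del κ (kap μ (stepFun α w v)) ≤ del κ (kap μ v) + 1 := by
  rcases v with ⟨x, o, j⟩
  rcases w with i | a | u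
  · -- position step
    obtain ⟨h1, h2⟩ := swap_val_le i j
    rcases o with _ | b
    · exact del_pos κ _ _ _ h1 h2
    · exact del_pos κ _ _ _ h1 h2
  · by_cases hj : j = 0
    · subst hj
      have : ∀ o' : Option Arm, del κ (kap μ ((x, o', 0) : Z S h)) = κ.2 := by
        intro o'
        rcases o' with _ | b
        · exact del_zero κ _
        · exact del_zero κ _
      have h2 : stepFun α (Sum.inr (Sum.inl a)) ((x, o, 0) : Z S h) =
          (x, Equiv.swap none a o, 0) := by
        simp [stepFun, cenFun]
      rw [h2, this, this]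
      omega
    · have h2 : stepFun α (Sum.inr (Sum.inl a)) ((x, o, j) : Z S h) = (x, o, j) := by
        simp [stepFun, cenFun, hj]
      rw [h2]
      omega
  · rcases o with _ | b
    · exact Nat.le_succ _
    · by_cases hj : j = Fin.last h
      · subst hj
        have h2 : stepFun α (Sum.inr (Sum.inr u)) ((x, some b, Fin.last h) : Z S h) =
            (α b x, some (bar b), Fin.last h) := by
          simp [stepFun, glueFun]
        rw [h2]
        change del κ (Sum.inl (bar b), Fin.last h) ≤ del κ (Sum.inl b, Fin.last h) + 1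
        rw [del_last, del_last, bar_bar]
        have : (κ.1 = Sum.inl (bar b) ∨ κ.1 = Sum.inl b) ↔
            (κ.1 = Sum.inl b ∨ κ.1 = Sum.inl (bar b)) := or_comm
        simp only [this]
        omega
      · have h2 : stepFun α (Sum.inr (Sum.inr u)) ((x, some b, j) : Z S h) = (x, some b, j) := by
          simp [stepFun, glueFun, hj]
        rw [h2]
        omega

/-- `del` changes by at most one when the first argument moves by a step -/
theorem del_step_left (α : Arm → Equiv.Perm S) (μ : S → Bool) (w : Step h) (u : Z S h) (b : K h) :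
    del (kap μ (stepFun α w u)) b ≤ del (kap μ u) b + 1 := by
  rw [del_comm, del_comm (kap μ u)]
  exact del_step_right α μ w u b

/-- (S) adjacent points close to the centre lie in the same sheet -/
theorem nam_step (r : ℕ) (hr : 2 * r + 2 ≤ h) (α : Arm → Equiv.Perm S)
    (hα : ∀ a, α (bar a) = (α a)⁻¹) (μ : S → Bool) (κ : K h) (w : Step h) (v : Z S h)
    (hv : del κ (kap μ v) < r) :
    nam α κ (stepFun α w v) = nam α κ v := by
  rcases κ with ⟨c, k⟩
  have hk := k.2
  rcases v with ⟨x, o, j⟩
  have hj2 := j.2
  rcases w with i | a | u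
  · -- position step
    rcases c with c | c <;> rcases o with _ | b <;> rfl
  · by_cases hj : j = 0
    · subst hj
      have hκ : (k : ℕ) < r := by
        rcases o with _ | b
        · change del ((c, k) : K h) (Sum.inr (μ x), 0) < r at hv
          rw [del_zero] at hv
          exact hv
        · change del ((c, k) : K h) (Sum.inl b, 0) < r at hv
          rw [del_zero] at hv
          exact hv
      have h2 : stepFun α (Sum.inr (Sum.inl a)) ((x, o, 0) : Z S h) =
          (x, Equiv.swap none a o, 0) := by
        simp [stepFun, cenFun]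
      rw [h2]
      have key : ∀ o' : Option Arm, nam α ((c, k) : K h) ((x, o', 0) : Z S h) = x := by
        intro o'
        rcases c with c | c <;> rcases o' with _ | b
        · rfl
        · simp only [nam]
          rw [if_neg]
          rintro ⟨h1, -⟩
          omega
        · rfl
        · rfl
      rw [key, key]
    · have h2 : stepFun α (Sum.inr (Sum.inl a)) ((x, o, j) : Z S h) = (x, o, j) := by
        simp [stepFun, cenFun, hj]
      rw [h2]
  · rcases o with _ | b
    · rfl
    · by_cases hj : j = Fin.last h
      · subst hj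
        have h2 : stepFun α (Sum.inr (Sum.inr u)) ((x, some b, Fin.last h) : Z S h) =
            (α b x, some (bar b), Fin.last h) := by
          simp [stepFun, glueFun]
        rw [h2]
        change del ((c, k) : K h) (Sum.inl b, Fin.last h) < r at hv
        rw [del_last] at hv
        simp only at hv
        split_ifs at hv with hcb
        · rcases hcb with hcb | hcb
          · subst hcb
            have hbb : ¬ b = bar b := fun h => bar_ne b h.symm
            have hk2 : h ≤ 2 * (k : ℕ) := by omega
            simp [nam, hk2, hbb, hα]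
          · subst hcb
            have hbb : ¬ bar b = bar (bar b) := by
              rw [bar_bar]; exact bar_ne b
            have hk2 : h ≤ 2 * (k : ℕ) := by omega
            have hbb' : ¬ bar b = b := bar_ne b
            simp [nam, hk2, hbb']
        · omega
      · have h2 : stepFun α (Sum.inr (Sum.inr u)) ((x, some b, j) : Z S h) = (x, some b, j) := by
          simp [stepFun, glueFun, hj]
        rw [h2]

/-- (T) tracking of the names when the centre moves: `u` in a graph over `S` with marks `μ`,
`v` in a graph over `S'` with marks `ν`. -/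
theorem nam_track (r : ℕ) (hr : 2 * r + 2 ≤ h) (α : Arm → Equiv.Perm S) (μ : S → Bool)
    (β : Arm → Equiv.Perm S') (hβ : ∀ a, β (bar a) = (β a)⁻¹) (ν : S' → Bool)
    (w : Step h) (u : Z S h) (v : Z S' h)
    (hv : del (kap μ u) (kap ν v) < r ∨ del (kap μ (stepFun α w u)) (kap ν v) < r) :
    nam β (kap μ (stepFun α w u)) v = tra β w u (nam β (kap μ u) v) := by
  rcases u with ⟨x, o, k⟩
  have hk := k.2
  rcases v with ⟨z, o', j⟩
  have hj := j.2
  rcases w with i | a | e
  · -- position step
    obtain ⟨h1, h2⟩ := swap_val_le i k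
    have h3 := (Equiv.swap i.castSucc i.succ k : Fin (h + 1)).2
    have h4 : stepFun α (Sum.inl i) ((x, o, k) : Z S h) =
        (x, o, Equiv.swap i.castSucc i.succ k) := rfl
    have h5 : ∀ y : S', (tra β (Sum.inl i) ((x, o, k) : Z S h)) y = y := fun y => rfl
    rw [h4] at hv ⊢
    rw [h5]
    generalize (Equiv.swap i.castSucc i.succ k : Fin (h + 1)) = k' at *
    rcases o with _ | a
    · rfl
    · rcases o' with _ | b
      · rfl
      · change (if h ≤ 2 * (k' : ℕ) ∧ b = bar a then β (bar a) z else z) =
          (if h ≤ 2 * (k : ℕ) ∧ b = bar a then β (bar a) z else z)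
        by_cases hb : b = bar a
        · subst hb
          have hne : ¬ (Sum.inl a : Arm ⊕ Bool) = Sum.inl (bar a) := by
            intro h; exact bar_ne a (Sum.inl.inj h).symm
          have hd : ∀ k0 : Fin (h + 1), del (kap μ ((x, some a, k0) : Z S h))
              (kap ν ((z, some (bar a), j) : Z S' h)) =
              min (k0 + j : ℕ) ((h - k0) + (h - j)) := by
            intro k0
            simp [del, kap, partner, hne]
          rw [hd, hd] at hv
          have : (h ≤ 2 * (k' : ℕ)) ↔ (h ≤ 2 * (k : ℕ)) := by omega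
          simp only [this]
        · simp [hb]
  · by_cases hk0 : k = 0
    · subst hk0
      have h2 : stepFun α (Sum.inr (Sum.inl a)) ((x, o, 0) : Z S h) =
          (x, Equiv.swap none a o, 0) := by
        simp [stepFun, cenFun]
      rw [h2]
      have h5 : ∀ y : S', (tra β (Sum.inr (Sum.inl a)) ((x, o, 0) : Z S h)) y = y := fun y => rfl
      rw [h5]
      have key : ∀ o1 : Option Arm, nam β (kap μ ((x, o1, 0) : Z S h)) ((z, o', j) : Z S' h) = z := by
        intro o1
        rcases o1 with _ | c <;> rcases o' with _ | b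
        · rfl
        · rfl
        · rfl
        · change (if h ≤ 2 * ((0 : Fin (h + 1)) : ℕ) ∧ b = bar c then β (bar c) z else z) = z
          rw [if_neg]
          rintro ⟨h1, -⟩
          simp only [Fin.val_zero] at h1
          omega
      rw [key, key]
    · have h2 : stepFun α (Sum.inr (Sum.inl a)) ((x, o, k) : Z S h) = (x, o, k) := by
        simp [stepFun, cenFun, hk0]
      rw [h2]
      rfl
  · rcases o with _ | a
    · rfl
    · by_cases hk0 : k = Fin.last h
      · subst hk0
        have h2 : stepFun α (Sum.inr (Sum.inr e)) ((x, some a, Fin.last h) : Z S h) =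
            (α a x, some (bar a), Fin.last h) := by
          simp [stepFun, glueFun]
        rw [h2] at hv ⊢
        have h5 : tra β (Sum.inr (Sum.inr e)) ((x, some a, Fin.last h) : Z S h) = β a := by
          simp [tra]
        rw [h5]
        rw [del_comm _ (kap ν _), del_comm _ (kap ν _)] at hv
        change del (kap ν (z, o', j)) (Sum.inl a, Fin.last h) < r ∨
          del (kap ν (z, o', j)) (Sum.inl (bar a), Fin.last h) < r at hv
        rw [del_last, del_last, bar_bar] at hv
        rcases o' with _ | b
        · simp [kap] at hv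
          omega
        · have hv' : b = a ∨ b = bar a := by
            by_contra hcon
            push Not at hcon
            simp only [kap, Sum.inl.injEq, hcon.1, hcon.2, or_self, if_false] at hv
            omega
          rcases hv' with rfl | rfl
          · have hbb : ¬ b = bar b := fun h => bar_ne b h.symm
            simp [nam, kap, hbb]
            omega
          · have hbb : ¬ bar a = a := bar_ne a
            have h6 : h ≤ 2 * h := by omega
            simp [nam, kap, hbb, hβ, h6]
      · have h2 : stepFun α (Sum.inr (Sum.inr e)) ((x, some a, k) : Z S h) = (x, some a, k) := by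
          simp [stepFun, glueFun, hk0]
        rw [h2]
        simp [tra, hk0]

/-- (K) at the end of the leg only sheets with the right mark are visible -/
theorem nam_mark (r : ℕ) (hr : 2 * r + 2 ≤ h) (μ : S → Bool)
    (β : Arm → Equiv.Perm S') (ν : S' → Bool) (x : S) (v : Z S' h)
    (hv : del (kap (h := h) μ (x, none, Fin.last h)) (kap ν v) < r) :
    ν (nam β (kap (h := h) μ (x, none, Fin.last h)) v) = μ x := by
  rcases v with ⟨y, o, j⟩
  rcases o with _ | b
  · by_cases hy : ν y = μ x
    · exact hy
    · exfalso
      have hne : ¬ μ x = ν y := fun h => hy h.symm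
      simp [del, kap, partner, hne] at hv
      omega
  · exfalso
    simp [del, kap, partner] at hv
    omega

/-- relation between the pair steps and `tra` -/
theorem step_prod (α : Arm → Equiv.Perm S) (β : Arm → Equiv.Perm S') (w : Step h)
    (x : S) (y : S') (a : Option Arm) (i : Fin (h + 1)) :
    stepFun (prodAct α β) w ((x, y), a, i) =
      (((stepFun α w (x, a, i)).1, tra β w (x, a, i) y), (stepFun α w (x, a, i)).2) := by
  rcases w with j | c | u
  · rfl
  · by_cases hi : i = 0
    · subst hi
      simp [stepFun, cenFun, tra]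
    · simp [stepFun, cenFun, tra, hi]
  · rcases a with _ | a
    · rfl
    · by_cases hi : i = Fin.last h
      · subst hi
        simp [stepFun, glueFun, tra]
      · simp [stepFun, glueFun, tra, hi]

end Crest.Agent.R115
end

-- ▼ part R115/CoreA

/-!
Core estimate, part A: points, test functions, cut-off functions.
-/

set_option autoImplicit false

namespace Crest.Agent.R115

open Finset

/-- points: terminals (`Sum.inl`) and deep points (`Sum.inr`) -/
abbrev Pts (h n : ℕ) : Type := (Fin n → K h) ⊕ (Σ m : ℕ, (Fin n → Z (G m) h))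

/-- coordinatewise type map -/
noncomputable def kapn {h n m : ℕ} (u : Fin n → Z (G m) h) : Fin n → K h :=
  fun i => kap (mark (q m)) (u i)

/-- coordinatewise step -/
noncomputable def stepn {h n m : ℕ} (w : Fin n → Step h) (e : Fin n → Bool)
    (u : Fin n → Z (G m) h) : Fin n → Z (G m) h :=
  fun i => if e i then stepFun (act (q m)) (w i) (u i) else u i

/-- test functions -/
def TestS (h n r ρ : ℕ) : Set (Pts h n → ℝ) :=
  {g | (∀ p, |g p| ≤ r) ∧
    (∀ (m : ℕ) (u : Fin n → Z (G m) h) (w : Fin n → Step h) (e : Fin n → Bool),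
      |g (Sum.inr ⟨m, u⟩) - g (Sum.inr ⟨m, stepn w e u⟩)| ≤ 1) ∧
    (∀ (m : ℕ) (u : Fin n → Z (G m) h),
      |g (Sum.inr ⟨m, u⟩) - g (Sum.inl (kapn u))| ≤ ρ)}

/-- sup distance on `Fin n → K h` -/
def Del {h n : ℕ} (κ b : Fin n → K h) : ℕ := Finset.univ.sup fun i => del (κ i) (b i)

lemma le_Del {h n : ℕ} (κ b : Fin n → K h) (i : Fin n) : del (κ i) (b i) ≤ Del κ b :=
  Finset.le_sup (f := fun i => del (κ i) (b i)) (Finset.mem_univ i)

lemma Del_le {h n : ℕ} {κ b : Fin n → K h} {d : ℕ} (H : ∀ i, del (κ i) (b i) ≤ d) :
    Del κ b ≤ d := Finset.sup_le fun i _ => H i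

lemma Del_self {h n : ℕ} (κ : Fin n → K h) : Del κ κ = 0 :=
  Nat.le_zero.mp (Del_le fun i => (del_self (κ i)).le)

/-- cut-off function -/
noncomputable def chi (r : ℕ) {h n : ℕ} (κ b : Fin n → K h) : ℝ := ((r - Del κ b : ℕ) : ℝ) / r

lemma chi_nonneg (r : ℕ) {h n : ℕ} (κ b : Fin n → K h) : 0 ≤ chi r κ b := by
  unfold chi; positivity

lemma chi_le_one (r : ℕ) {h n : ℕ} (κ b : Fin n → K h) : chi r κ b ≤ 1 := by
  unfold chi
  apply div_le_one_of_le₀ _ (Nat.cast_nonneg r)
  exact_mod_cast Nat.sub_le _ _

lemma chi_self {r : ℕ} (hr : 1 ≤ r) {h n : ℕ} (κ : Fin n → K h) : chi r κ κ = 1 := by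
  unfold chi
  rw [Del_self]
  have : (r : ℝ) ≠ 0 := by positivity
  simp [this]

lemma chi_eq_zero {r : ℕ} {h n : ℕ} {κ b : Fin n → K h} (i : Fin n)
    (hi : r ≤ del (κ i) (b i)) : chi r κ b = 0 := by
  unfold chi
  have : r - Del κ b = 0 := Nat.sub_eq_zero_of_le (hi.trans (le_Del κ b i))
  simp [this]

lemma del_lt_of_chi_ne {r : ℕ} {h n : ℕ} {κ b : Fin n → K h} (H : chi r κ b ≠ 0) (i : Fin n) :
    del (κ i) (b i) < r := by
  by_contra hc
  exact H (chi_eq_zero i (not_lt.mp hc))

lemma abs_chi_sub_le {r : ℕ} {h n : ℕ} {κ b κ' b' : Fin n → K h}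
    (h1 : Del κ b ≤ Del κ' b' + 1) (h2 : Del κ' b' ≤ Del κ b + 1) :
    |chi r κ b - chi r κ' b'| ≤ 1 / r := by
  unfold chi
  rw [← sub_div, abs_div, Nat.abs_cast]
  gcongr
  rw [abs_le]
  constructor
  · have : (r - Del κ' b' : ℕ) ≤ (r - Del κ b : ℕ) + 1 := by omega
    have : ((r - Del κ' b' : ℕ) : ℝ) ≤ ((r - Del κ b : ℕ) : ℝ) + 1 := by exact_mod_cast this
    linarith
  · have : (r - Del κ b : ℕ) ≤ (r - Del κ' b' : ℕ) + 1 := by omega
    have : ((r - Del κ b : ℕ) : ℝ) ≤ ((r - Del κ' b' : ℕ) : ℝ) + 1 := by exact_mod_cast this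
    linarith

section steps

variable {h n m : ℕ}

lemma stepn_invol (w : Fin n → Step h) (e : Fin n → Bool) (u : Fin n → Z (G m) h) :
    stepn w e (stepn w e u) = u := by
  funext i
  by_cases hi : e i
  · simp [stepn, hi, stepFun_invol _ (act_bar (q m))]
  · simp [stepn, hi]

lemma Del_stepn_right (κ : Fin n → K h) (w : Fin n → Step h) (e : Fin n → Bool)
    (u : Fin n → Z (G m) h) : Del κ (kapn (stepn w e u)) ≤ Del κ (kapn u) + 1 := by
  apply Del_le
  intro i
  have h1 := le_Del κ (kapn u) i
  by_cases hi : e i
  · have h2 := del_step_right (act (q m)) (mark (q m)) (w i) (u i) (κ i)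
    simp only [kapn, stepn, hi, if_true] at *
    omega
  · simp only [kapn, stepn, hi] at *
    simp at *
    omega

lemma Del_stepn_left (w : Fin n → Step h) (e : Fin n → Bool)
    (u : Fin n → Z (G m) h) (b : Fin n → K h) :
    Del (kapn (stepn w e u)) b ≤ Del (kapn u) b + 1 := by
  apply Del_le
  intro i
  have h1 := le_Del (kapn u) b i
  by_cases hi : e i
  · have h2 := del_step_left (act (q m)) (mark (q m)) (w i) (u i) (b i)
    simp only [kapn, stepn, hi, if_true] at *
    omega
  · simp only [kapn, stepn, hi] at *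
    simp at *
    omega

lemma abs_chi_stepn_right (r : ℕ) (κ : Fin n → K h) (w : Fin n → Step h) (e : Fin n → Bool)
    (u : Fin n → Z (G m) h) :
    |chi r κ (kapn u) - chi r κ (kapn (stepn w e u))| ≤ 1 / r := by
  apply abs_chi_sub_le
  · have := Del_stepn_right κ w e (stepn w e u)
    rwa [stepn_invol] at this
  · exact Del_stepn_right κ w e u

lemma abs_chi_stepn_left (r : ℕ) (w : Fin n → Step h) (e : Fin n → Bool)
    (u : Fin n → Z (G m) h) (b : Fin n → K h) :
    |chi r (kapn u) b - chi r (kapn (stepn w e u)) b| ≤ 1 / r := by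
  apply abs_chi_sub_le
  · have := Del_stepn_left w e (stepn w e u) b
    rwa [stepn_invol] at this
  · exact Del_stepn_left w e u b

end steps

/-- coordinatewise names -/
noncomputable def namn {h n m : ℕ} (κ : Fin n → K h) (v : Fin n → Z (G m) h) : Fin n → G m :=
  fun i => nam (act (q m)) (κ i) (v i)

/-- coordinatewise transition of names -/
noncomputable def tran {h n m : ℕ} (m' : ℕ) (w : Fin n → Step h) (e : Fin n → Bool)
    (u : Fin n → Z (G m) h) : Equiv.Perm (Fin n → G m') :=
  Equiv.piCongrRight fun i => if e i then tra (act (q m')) (w i) (u i) else 1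

lemma namn_stepn {h n m : ℕ} {r : ℕ} (hr : 2 * r + 2 ≤ h) (κ : Fin n → K h)
    (w : Fin n → Step h) (e : Fin n → Bool) (v : Fin n → Z (G m) h)
    (hv : chi r κ (kapn v) ≠ 0) : namn κ (stepn w e v) = namn κ v := by
  funext i
  have h1 := del_lt_of_chi_ne hv i
  by_cases hi : e i
  · simp only [namn, stepn, hi, if_true]
    exact nam_step r hr _ (act_bar (q m)) (mark (q m)) (κ i) (w i) (v i) h1
  · simp [namn, stepn, hi]

lemma namn_stepn' {h n m : ℕ} {r : ℕ} (hr : 2 * r + 2 ≤ h) (κ : Fin n → K h)
    (w : Fin n → Step h) (e : Fin n → Bool) (v : Fin n → Z (G m) h)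
    (hv : chi r κ (kapn v) ≠ 0 ∨ chi r κ (kapn (stepn w e v)) ≠ 0) :
    namn κ (stepn w e v) = namn κ v := by
  rcases hv with hv | hv
  · exact namn_stepn hr κ w e v hv
  · have := namn_stepn hr κ w e (stepn w e v) hv
    rw [stepn_invol] at this
    exact this.symm

lemma namn_track {h n m m' : ℕ} {r : ℕ} (hr : 2 * r + 2 ≤ h)
    (w : Fin n → Step h) (e : Fin n → Bool) (u : Fin n → Z (G m) h) (v : Fin n → Z (G m') h)
    (hv : chi r (kapn u) (kapn v) ≠ 0 ∨ chi r (kapn (stepn w e u)) (kapn v) ≠ 0) :
    namn (kapn (stepn w e u)) v = tran m' w e u (namn (kapn u) v) := by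
  funext i
  by_cases hi : e i
  · simp only [namn, tran, stepn, kapn, hi, if_true, Equiv.piCongrRight_apply, Pi.map_apply]
    apply nam_track r hr _ _ _ (act_bar (q m')) (mark (q m'))
    rcases hv with hv | hv
    · left; exact del_lt_of_chi_ne hv i
    · right
      have := del_lt_of_chi_ne hv i
      simpa only [kapn, stepn, hi, if_true] using this
  · simp [namn, tran, stepn, kapn, hi]

end Crest.Agent.R115
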