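import Mathlib

/-!
Row 115 (S0154): definitions shared by all modules.

Overview (see notes of rid 115 for the blueprint).
-/

set_option autoImplicit false

namespace Crest.Agent.R115

open Finset

/-- The arms of the bouquet: a generator `s : Fin 4` together with a direction. -/
abbrev Arm : Type := Fin 4 × Bool

/-- the opposite arm -/
def bar (a : Arm) : Arm := (a.1, !a.2)

@[simp] lemma bar_bar (a : Arm) : bar (bar a) = a := by
  cases a; simp [bar]

lemma bar_ne (a : Arm) : bar a ≠ a := by
  rcases a with ⟨s, b⟩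
  cases b <;> simp [bar]

/-- The four generators acting on `(ZMod N)²`:
`(x+1,y)`, `(x,y+1)`, `(x+2y,y)`, `(x,y+2x)`. -/
def gen (N : ℕ) (s : Fin 4) : Equiv.Perm (ZMod N × ZMod N) :=
  match s with
  | 0 => { toFun := fun z => (z.1 + 1, z.2), invFun := fun z => (z.1 - 1, z.2),
           left_inv := fun z => by simp, right_inv := fun z => by simp }
  | 1 => { toFun := fun z => (z.1, z.2 + 1), invFun := fun z => (z.1, z.2 - 1),
           left_inv := fun z => by simp, right_inv := fun z => by simp }
  | 2 => { toFun := fun z => (z.1 + 2 * z.2, z.2), invFun := fun z => (z.1 - 2 * z.2, z.2),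
           left_inv := fun z => by simp, right_inv := fun z => by simp }
  | 3 => { toFun := fun z => (z.1, z.2 + 2 * z.1), invFun := fun z => (z.1, z.2 - 2 * z.1),
           left_inv := fun z => by simp, right_inv := fun z => by simp }

/-- arms act by the generators and their inverses -/
def act (N : ℕ) (a : Arm) : Equiv.Perm (ZMod N × ZMod N) :=
  if a.2 then gen N a.1 else (gen N a.1)⁻¹

lemma act_bar (N : ℕ) (a : Arm) : act N (bar a) = (act N a)⁻¹ := by
  rcases a with ⟨s, b⟩
  cases b <;> simp [act, bar]

/-- product action -/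
def prodAct {G Y : Type} (α : Arm → Equiv.Perm G) (β : Arm → Equiv.Perm Y) (a : Arm) :
    Equiv.Perm (G × Y) := Equiv.prodCongr (α a) (β a)

@[simp] lemma prodAct_apply {G Y : Type} (α : Arm → Equiv.Perm G) (β : Arm → Equiv.Perm Y)
    (a : Arm) (z : G × Y) : prodAct α β a z = (α a z.1, β a z.2) := rfl

/-- marks on `(ZMod N)²` -/
def mark (N : ℕ) (x : ZMod N × ZMod N) : Bool := decide (2 * x.1.val < N)

/-- the moduli: the primes -/
noncomputable def q (m : ℕ) : ℕ := Nat.nth Nat.Prime m

lemma q_prime (m : ℕ) : (q m).Prime := Nat.prime_nth_prime m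

instance (m : ℕ) : Fact (q m).Prime := ⟨q_prime m⟩

lemma q_injective : Function.Injective q :=
  (Nat.nth_strictMono Nat.infinite_setOfPred_prime).injective

/-- the base vertex sets `G m = (ZMod (q m))²` -/
abbrev G (m : ℕ) : Type := ZMod (q m) × ZMod (q m)

/-- Subdivided labelled graph over a set `S`: vertices `S`, at each vertex one arm of length `h`
for each `a : Arm` (index `some a`) and one leg (index `none`). -/
abbrev Z (S : Type) (h : ℕ) : Type := S × Option Arm × Fin (h + 1)

/-- index set of the unit steps: swap positions `i, i+1` on all arms; at position `0` swap the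
leg with an arm (or do nothing); the glueing of the end of arm `a` at `z` with the end of arm
`bar a` at `a • z`. -/
abbrev Step (h : ℕ) : Type := Fin h ⊕ (Option Arm ⊕ Unit)

/-- glueing map -/
def glueFun {S : Type} {h : ℕ} (α : Arm → Equiv.Perm S) (z : Z S h) : Z S h :=
  match z with
  | (x, none, i) => (x, none, i)
  | (x, some a, i) => if i = Fin.last h then (α a x, some (bar a), i) else (x, some a, i)

lemma glueFun_invol {S : Type} {h : ℕ} (α : Arm → Equiv.Perm S)
    (hα : ∀ a, α (bar a) = (α a)⁻¹) (z : Z S h) : glueFun α (glueFun α z) = z := by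
  rcases z with ⟨x, a, i⟩
  rcases a with _ | a
  · rfl
  · by_cases hi : i = Fin.last h
    · simp [glueFun, hi, hα]
    · simp [glueFun, hi]

/-- swap at the centre -/
def cenFun {S : Type} {h : ℕ} (a : Option Arm) (z : Z S h) : Z S h :=
  if z.2.2 = 0 then (z.1, Equiv.swap none a z.2.1, z.2.2) else z

lemma cenFun_invol {S : Type} {h : ℕ} (a : Option Arm) (z : Z S h) :
    cenFun a (cenFun a z) = z := by
  rcases z with ⟨x, b, i⟩
  by_cases hi : i = 0
  · simp [cenFun, hi]
  · simp [cenFun, hi]

/-- swap of positions `i`, `i+1` -/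
def posFun {S : Type} {h : ℕ} (i : Fin h) (z : Z S h) : Z S h :=
  (z.1, z.2.1, Equiv.swap i.castSucc i.succ z.2.2)

lemma posFun_invol {S : Type} {h : ℕ} (i : Fin h) (z : Z S h) :
    posFun i (posFun i z) = z := by
  rcases z with ⟨x, b, j⟩
  simp [posFun]

/-- the step functions -/
def stepFun {S : Type} {h : ℕ} (α : Arm → Equiv.Perm S) (w : Step h) : Z S h → Z S h :=
  match w with
  | Sum.inl i => posFun i
  | Sum.inr (Sum.inl a) => cenFun a
  | Sum.inr (Sum.inr _) => glueFun α

lemma stepFun_invol {S : Type} {h : ℕ} (α : Arm → Equiv.Perm S)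
    (hα : ∀ a, α (bar a) = (α a)⁻¹) (w : Step h) (z : Z S h) :
    stepFun α w (stepFun α w z) = z := by
  rcases w with i | a | u
  · exact posFun_invol i z
  · exact cenFun_invol a z
  · exact glueFun_invol α hα z

/-- the step permutations -/
def step {S : Type} {h : ℕ} (α : Arm → Equiv.Perm S) (hα : ∀ a, α (bar a) = (α a)⁻¹)
    (w : Step h) : Equiv.Perm (Z S h) where
  toFun := stepFun α w
  invFun := stepFun α w
  left_inv := stepFun_invol α hα w
  right_inv := stepFun_invol α hα w

@[simp] lemma step_apply {S : Type} {h : ℕ} (α : Arm → Equiv.Perm S)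
    (hα : ∀ a, α (bar a) = (α a)⁻¹) (w : Step h) (z : Z S h) :
    step α hα w z = stepFun α w z := rfl

lemma prodAct_bar {G Y : Type} (α : Arm → Equiv.Perm G) (β : Arm → Equiv.Perm Y)
    (hα : ∀ a, α (bar a) = (α a)⁻¹) (hβ : ∀ a, β (bar a) = (β a)⁻¹) (a : Arm) :
    prodAct α β (bar a) = (prodAct α β a)⁻¹ := by
  ext z <;> simp [prodAct, hα, hβ]

/-- The type graph `K1`: arms `inl a`, two legs `inr true`, `inr false`, positions `0..h`. -/
abbrev K (h : ℕ) : Type := (Arm ⊕ Bool) × Fin (h + 1)

/-- the type map for a vertex set `S` with marks `μ` -/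
def kap {S : Type} {h : ℕ} (μ : S → Bool) (z : Z S h) : K h :=
  match z with
  | (x, none, i) => (Sum.inr (μ x), i)
  | (_, some a, i) => (Sum.inl a, i)

/-- two different arms are partners if they are `a` and `bar a` -/
def partner : Arm ⊕ Bool → Arm ⊕ Bool → Prop
  | Sum.inl a, Sum.inl b => b = bar a
  | _, _ => False

instance : DecidableRel partner := fun x y => by
  rcases x with a | c <;> rcases y with b | d <;> unfold partner <;> infer_instance

/-- combinatorial distance on `K h` (correct at distances smaller than `h / 2`) -/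
def del {h : ℕ} (κ b : K h) : ℕ :=
  if κ.1 = b.1 then Nat.dist κ.2 b.2
  else if partner κ.1 b.1 then min (κ.2 + b.2 : ℕ) ((h - κ.2) + (h - b.2))
  else κ.2 + b.2

/-- name of the sheet of `v` relative to the centre `κ` -/
def nam {S : Type} {h : ℕ} (α : Arm → Equiv.Perm S) (κ : K h) (v : Z S h) : S :=
  match κ, v with
  | (Sum.inl a, i), (z, some a', _) => if h ≤ 2 * (i : ℕ) ∧ a' = bar a then α (bar a) z else z
  | _, (z, _, _) => z

/-- transition of the names when the centre moves from `kap u` to `kap (stepFun α w u)` -/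
def tra {S S' : Type} {h : ℕ} (β : Arm → Equiv.Perm S') (w : Step h) (u : Z S h) :
    Equiv.Perm S' :=
  match w, u with
  | Sum.inr (Sum.inr _), (_, some a, i) => if i = Fin.last h then β a else 1
  | _, _ => 1

end Crest.Agent.R115
private theorem rz_f6a683fab3 : type_of% @_root_.Crest.Agent.R115.gen.eq_1 := @_root_.Crest.Agent.R115.gen.eq_1 -- L30
private theorem rz_86b695d114 : type_of% @_root_.Crest.Agent.R115.glueFun.eq_1 := @_root_.Crest.Agent.R115.glueFun.eq_1 -- L82
private theorem rz_eab689f1b6 : type_of% @_root_.Crest.Agent.R115.kap.eq_1 := @_root_.Crest.Agent.R115.kap.eq_1 -- L152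
private theorem rz_89bb9aa016 : type_of% @_root_.Crest.Agent.R115.nam.eq_1 := @_root_.Crest.Agent.R115.nam.eq_1 -- L172
private theorem rz_ea254ec629 : type_of% @_root_.Crest.Agent.R115.partner.eq_1 := @_root_.Crest.Agent.R115.partner.eq_1 -- L158
private theorem rz_152031411e : type_of% @_root_.Crest.Agent.R115.stepFun.eq_1 := @_root_.Crest.Agent.R115.stepFun.eq_1 -- L117
private theorem rz_03ea3dac7f : type_of% @_root_.Crest.Agent.R115.tra.eq_1 := @_root_.Crest.Agent.R115.tra.eq_1 -- L178
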