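import Crest.Agent.R115.CoreA
import Crest.Agent.R115.Tensor
import Crest.Agent.R137.WeylCore_Mg
import Crest.Agent.R115.Defs
import Mathlib
import Crest.Prelude.Def_LipschitzFree

-- ▼ part R115/CoreB
section

/-!
Core estimate, part B: test functions, pairing, mass and variation.
-/

set_option autoImplicit false

namespace Crest.Agent.R115

open Finset

section theta

variable {h n : ℕ}

/-- The test function with signs `θT` on terminals, `θS` on sheets, centred at `κ`. -/
noncomputable def Theta (r : ℕ) (κ : Fin n → K h) (θT : (Fin n → K h) → ℝ)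
    (θS : ∀ m' : ℕ, (Fin n → G m') → ℝ) : Pts h n → ℝ
  | Sum.inl b => θT b * chi r κ b
  | Sum.inr ⟨m', v⟩ => θS m' (namn κ v) * chi r κ (kapn v)

/-- type of a point -/
noncomputable def kn : Pts h n → (Fin n → K h)
  | Sum.inl b => b
  | Sum.inr ⟨_, v⟩ => kapn v

lemma small_mem_TestS {r ρ : ℕ} (hr : 1 ≤ r) (hρ : 1 ≤ ρ) (g : Pts h n → ℝ)
    (hg : ∀ p, |g p| ≤ 1 / 2) : g ∈ TestS h n r ρ := by
  have hr' : (1 : ℝ) ≤ r := by exact_mod_cast hr
  have hρ' : (1 : ℝ) ≤ ρ := by exact_mod_cast hρ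
  have h2 : ∀ p p', |g p - g p'| ≤ 1 := by
    intro p p'
    have h1 := abs_le.mp (hg p)
    have h2 := abs_le.mp (hg p')
    rw [abs_le]; constructor <;> linarith
  refine ⟨fun p => (hg p).trans (by linarith), fun m u w e => h2 _ _, fun m u => (h2 _ _).trans hρ'⟩

lemma mass_mem_TestS {r ρ : ℕ} (hr : 1 ≤ r) (κ : Fin n → K h) :
    (fun p => (r : ℝ) * chi r κ (kn p)) ∈ TestS h n r ρ := by
  have hr' : (0 : ℝ) < r := by exact_mod_cast hr
  refine ⟨fun p => ?_, fun m u w e => ?_, fun m u => ?_⟩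
  · rw [abs_of_nonneg (by have := chi_nonneg r κ (kn p); positivity)]
    have := chi_le_one r κ (kn p)
    nlinarith
  · simp only [kn]
    rw [← mul_sub, abs_mul, abs_of_pos hr']
    have := abs_chi_stepn_right r κ w e u
    calc (r : ℝ) * |chi r κ (kapn u) - chi r κ (kapn (stepn w e u))|
        ≤ r * (1 / r) := by gcongr
      _ = 1 := by field_simp
  · simp [kn]

lemma Theta_mem_TestS {r ρ : ℕ} (hr : 1 ≤ r) (hρr : ρ ≤ r) (hh : 2 * r + 2 ≤ h)
    (κ : Fin n → K h) (θT : (Fin n → K h) → ℝ) (θS : ∀ m' : ℕ, (Fin n → G m') → ℝ)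
    (hT : ∀ b, |θT b| ≤ 1) (hS : ∀ m' y, |θS m' y| ≤ 1) :
    (fun p => (ρ : ℝ) / 2 * Theta r κ θT θS p) ∈ TestS h n r ρ := by
  have hr' : (0 : ℝ) < r := by exact_mod_cast hr
  have hρr' : (ρ : ℝ) ≤ r := by exact_mod_cast hρr
  have hρ0 : (0 : ℝ) ≤ ρ := Nat.cast_nonneg ρ
  have key : ∀ p, |Theta r κ θT θS p| ≤ 1 := by
    intro p
    rcases p with b | ⟨m', v⟩
    · simp only [Theta]
      rw [abs_mul, abs_of_nonneg (chi_nonneg _ _ _)]
      have h1 := hT b
      have h2 := chi_le_one r κ b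
      have h3 := chi_nonneg r κ b
      have h4 := abs_nonneg (θT b)
      nlinarith
    · simp only [Theta]
      rw [abs_mul, abs_of_nonneg (chi_nonneg _ _ _)]
      have h1 := hS m' (namn κ v)
      have h2 := chi_le_one r κ (kapn v)
      have h3 := chi_nonneg r κ (kapn v)
      have h4 := abs_nonneg (θS m' (namn κ v))
      nlinarith
  refine ⟨fun p => ?_, fun m u w e => ?_, fun m u => ?_⟩
  · rw [abs_mul, abs_of_nonneg (by positivity : (0 : ℝ) ≤ ρ / 2)]
    have := key p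
    have h0 := abs_nonneg (Theta r κ θT θS p)
    nlinarith
  · rw [← mul_sub, abs_mul, abs_of_nonneg (by positivity : (0 : ℝ) ≤ ρ / 2)]
    have h1 : |Theta r κ θT θS (Sum.inr ⟨m, u⟩) - Theta r κ θT θS (Sum.inr ⟨m, stepn w e u⟩)|
        ≤ 1 / r := by
      by_cases hz : chi r κ (kapn u) ≠ 0 ∨ chi r κ (kapn (stepn w e u)) ≠ 0
      · have hn := namn_stepn' hh κ w e u hz
        simp only [Theta]
        rw [hn, ← mul_sub, abs_mul]
        have h2 := abs_chi_stepn_right r κ w e u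
        have h3 := hS m (namn κ u)
        calc |θS m (namn κ u)| * |chi r κ (kapn u) - chi r κ (kapn (stepn w e u))|
            ≤ 1 * (1 / r) := by gcongr
          _ = 1 / r := one_mul _
      · push Not at hz
        simp only [Theta, hz.1, hz.2]
        simp
    calc (ρ : ℝ) / 2 * _ ≤ ρ / 2 * (1 / r) := by gcongr
      _ ≤ 1 := by
        rw [mul_one_div, div_div, div_le_one (by positivity)]
        linarith
  · rw [← mul_sub, abs_mul, abs_of_nonneg (by positivity : (0 : ℝ) ≤ ρ / 2)]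
    have h1 := key (Sum.inr ⟨m, u⟩)
    have h2 := key (Sum.inl (kapn u))
    have h3 : |Theta r κ θT θS (Sum.inr ⟨m, u⟩) - Theta r κ θT θS (Sum.inl (kapn u))| ≤ 2 := by
      rw [abs_le] at *
      constructor <;> linarith [h1.1, h1.2, h2.1, h2.2]
    calc (ρ : ℝ) / 2 * _ ≤ ρ / 2 * 2 := by gcongr
      _ = ρ := by ring

/-- difference of two test functions with adjacent centres -/
lemma Theta_sub {r : ℕ} (hr : 1 ≤ r) (hh : 2 * r + 2 ≤ h) {m : ℕ} (u : Fin n → Z (G m) h)
    (w : Fin n → Step h) (e : Fin n → Bool) (θT : (Fin n → K h) → ℝ)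
    (θS : ∀ m' : ℕ, (Fin n → G m') → ℝ)
    (hT : ∀ b, |θT b| ≤ 1) (hS : ∀ m' y, |θS m' y| ≤ 1) (p : Pts h n) :
    |Theta r (kapn u) θT θS p -
      Theta r (kapn (stepn w e u)) θT (fun m' y => θS m' ((tran m' w e u).symm y)) p| ≤ 1 / r := by
  rcases p with b | ⟨m', v⟩
  · simp only [Theta]
    rw [← mul_sub, abs_mul]
    have h2 := abs_chi_stepn_left r w e u b
    calc |θT b| * |chi r (kapn u) b - chi r (kapn (stepn w e u)) b|
        ≤ 1 * (1 / r) := by gcongr; exact hT b
      _ = 1 / r := one_mul _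
  · simp only [Theta]
    by_cases hz : chi r (kapn u) (kapn v) ≠ 0 ∨ chi r (kapn (stepn w e u)) (kapn v) ≠ 0
    · have hn := namn_track hh w e u v hz
      rw [hn, Equiv.symm_apply_apply, ← mul_sub, abs_mul]
      have h2 := abs_chi_stepn_left r w e u (kapn v)
      calc |θS m' (namn (kapn u) v)| *
            |chi r (kapn u) (kapn v) - chi r (kapn (stepn w e u)) (kapn v)|
          ≤ 1 * (1 / r) := by gcongr; exact hS _ _
        _ = 1 / r := one_mul _
    · push Not at hz
      simp [hz.1, hz.2]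

end theta

section pairing

variable {h n : ℕ}

/-- pairing of the coefficients at `u` with a function -/
def prg (N : Finset (Pts h n)) (C : Pts h n → Pts h n → ℝ) (u : Pts h n) (g : Pts h n → ℝ) : ℝ :=
  ∑ p ∈ N, C u p * g p

lemma prg_split (N : Finset (Pts h n)) (C : Pts h n → Pts h n → ℝ)
    (hN : ∀ u p, p ∉ N → C u p = 0) (m : ℕ)
    (hm : ∀ m' v, (Sum.inr ⟨m', v⟩ : Pts h n) ∈ N → m' < m) (u : Pts h n) (g : Pts h n → ℝ) :
    prg N C u g = ∑ b, C u (Sum.inl b) * g (Sum.inl b) +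
      ∑ m' : Fin m, ∑ v : Fin n → Z (G m') h,
        C u (Sum.inr ⟨m', v⟩) * g (Sum.inr ⟨m', v⟩) := by
  classical
  let T := (Fin n → K h) ⊕ (Σ m' : Fin m, (Fin n → Z (G m') h))
  let ι : T → Pts h n := fun t => match t with
    | Sum.inl b => Sum.inl b
    | Sum.inr ⟨m', v⟩ => Sum.inr ⟨m', v⟩
  have hι : Function.Injective ι := by
    intro a b hab
    rcases a with a | ⟨a, a'⟩ <;> rcases b with b | ⟨b, b'⟩
    · simp only [ι, Sum.inl.injEq] at hab
      rw [hab]
    · simp [ι] at hab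
    · simp [ι] at hab
    · simp only [ι, Sum.inr.injEq, Sigma.mk.injEq] at hab
      obtain ⟨h1, h2⟩ := hab
      have h3 : a = b := Fin.ext h1
      subst h3
      have h4 : a' = b' := by simpa using h2
      rw [h4]
  have h1 : prg N C u g = ∑ t : T, C u (ι t) * g (ι t) := by
    unfold prg
    rw [← Finset.sum_image (s := Finset.univ) (g := ι) (f := fun p => C u p * g p)
      (fun a _ b _ hab => hι hab)]
    apply Finset.sum_subset
    · intro p hp
      rw [Finset.mem_image]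
      rcases p with b | ⟨m', v⟩
      · exact ⟨Sum.inl b, Finset.mem_univ _, rfl⟩
      · exact ⟨Sum.inr ⟨⟨m', hm m' v hp⟩, v⟩, Finset.mem_univ _, rfl⟩
    · intro p _ hp
      rw [hN u p hp, zero_mul]
  rw [h1, Fintype.sum_sum_type, Fintype.sum_sigma]

end pairing

end Crest.Agent.R115
private theorem rz_3f5eb2a69d : type_of% @_root_.Crest.Agent.R115.Theta.eq_1 := @_root_.Crest.Agent.R115.Theta.eq_1 -- L18
private theorem rz_94ba9ba798 : type_of% @_root_.Crest.Agent.R115.kn.eq_1 := @_root_.Crest.Agent.R115.kn.eq_1 -- L24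
end

-- ▼ part R115/CoreC
section

/-!
Core estimate, part C: tensorised Poincaré inequality for pairs (point, name).
-/

set_option autoImplicit false

namespace Crest.Agent.R115

open Finset

section reindex

variable {h n m : ℕ} {Y : Type}

/-- pack a point and a name into a point of the pair graph -/
def packZ (z : Z (G m) h) (y : Y) : Z (G m × Y) h := ((z.1, y), z.2)

/-- coordinatewise packing as an equivalence -/
def packE (h n m : ℕ) (Y : Type) :
    (Fin n → Z (G m) h) × (Fin n → Y) ≃ (Fin n → Z (G m × Y) h) where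
  toFun p i := packZ (p.1 i) (p.2 i)
  invFun p := (fun i => ((p i).1.1, (p i).2), fun i => (p i).1.2)
  left_inv := fun _ => rfl
  right_inv := fun _ => rfl

/-- coordinatewise transition on an arbitrary `Y` -/
def tranY (β : Arm → Equiv.Perm Y) (w : Fin n → Step h) (e : Fin n → Bool)
    (u : Fin n → Z (G m) h) (y : Fin n → Y) : Fin n → Y :=
  fun i => if e i then tra β (w i) (u i) (y i) else y i

theorem tensor_pairs [Fintype Y] (β : Arm → Equiv.Perm Y) (hβ : ∀ a, β (bar a) = (β a)⁻¹)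
    (D : Set (Z (G m × Y) h)) (c : ℝ) (hc : 0 < c) (hc1 : c ≤ 1)
    (hgap : ∀ g : Z (G m × Y) h → ℝ, (∀ p ∈ D, g p = 0) →
      c * ∑ p, g p ^ 2 ≤
        ∑ w : Step h, ∑ p, (g p - g (stepFun (prodAct (act (q m)) β) w p)) ^ 2)
    (hn : (1 - c / (4 * Fintype.card (Step h))) ^ n ≤ 1 / 4)
    (f : (Fin n → Z (G m) h) → (Fin n → Y) → ℝ)
    (hD : ∀ u y, (∃ i, packZ (u i) (y i) ∈ D) → f u y = 0) :
    (2 * (Fintype.card (Step h) : ℝ)) ^ n * ∑ u, ∑ y, |f u y| ≤
      ∑ w : Fin n → Step h, ∑ e : Fin n → Bool, ∑ u, ∑ y,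
        |f u y - f (stepn w e u) (tranY β w e u y)| := by
  have hαβ : ∀ a, prodAct (act (q m)) β (bar a) = (prodAct (act (q m)) β a)⁻¹ :=
    prodAct_bar _ _ (act_bar (q m)) hβ
  let F : (Fin n → Z (G m × Y) h) → ℝ := fun p =>
    |f ((packE h n m Y).symm p).1 ((packE h n m Y).symm p).2|
  have H := tensor (P := Z (G m × Y) h) (Ω := Step h) (step (prodAct (act (q m)) β) hαβ) D c hc hc1
    (by
      intro g hg
      simpa only [step_apply] using hgap g hg) n hn F (fun p => abs_nonneg _)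
    (by
      intro p hp
      simp only [F, abs_eq_zero]
      exact hD _ _ hp)
  have e1 : ∑ p, F p = ∑ u, ∑ y, |f u y| := by
    rw [← Fintype.sum_prod_type', ← (packE h n m Y).sum_comp]
    rfl
  rw [e1] at H
  refine H.trans ?_
  refine Finset.sum_le_sum fun w _ => Finset.sum_le_sum fun e _ => ?_
  rw [← (packE h n m Y).sum_comp, Fintype.sum_prod_type]
  refine Finset.sum_le_sum fun u _ => Finset.sum_le_sum fun y _ => ?_
  have e2 : (fun i => if e i then (step (prodAct (act (q m)) β) hαβ (w i)) ((packE h n m Y) (u, y) i)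
      else (packE h n m Y) (u, y) i) = packE h n m Y (stepn w e u, tranY β w e u y) := by
    funext i
    by_cases hi : e i
    · simp only [hi, if_true, step_apply, packE, packZ, Equiv.coe_fn_mk, stepn, tranY]
      rcases hu : u i with ⟨x, a, j⟩
      simpa using step_prod (act (q m)) β (w i) x (y i) a j
    · simp [hi, packE, packZ, stepn, tranY]
  rw [e2]
  simp only [F, Equiv.symm_apply_apply]
  exact abs_abs_sub_abs_le_abs_sub _ _

end reindex

lemma tra_one {h : ℕ} {S Y : Type} (w : Step h) (u : Z S h) :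
    tra (fun _ : Arm => (1 : Equiv.Perm Y)) w u = 1 := by
  rcases w with i | a | t <;> rcases u with ⟨x, _ | a', j⟩ <;> simp [tra]

lemma tranY_one {h n m : ℕ} {Y : Type} (w : Fin n → Step h) (e : Fin n → Bool)
    (u : Fin n → Z (G m) h) (y : Fin n → Y) :
    tranY (fun _ : Arm => (1 : Equiv.Perm Y)) w e u y = y := by
  funext i
  simp [tranY, tra_one]

lemma tranY_act {h n m m' : ℕ} (w : Fin n → Step h) (e : Fin n → Bool)
    (u : Fin n → Z (G m) h) (y : Fin n → G m') :
    tranY (act (q m')) w e u y = tran m' w e u y := by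
  funext i
  by_cases hi : e i <;> simp [tranY, tran, hi]

end Crest.Agent.R115
end

-- ▼ part R115/CoreD
section

/-!
Core estimate, part D: coefficients, mass, variation, killing.
-/

set_option autoImplicit false

namespace Crest.Agent.R115

open Finset

variable {h n m : ℕ}

/-- terminal coefficients -/
noncomputable def fT (C : Pts h n → Pts h n → ℝ) (r : ℕ) (u : Fin n → Z (G m) h)
    (b : Fin n → K h) : ℝ := C (Sum.inr ⟨m, u⟩) (Sum.inl b) * chi r (kapn u) b

open Classical in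
/-- sheet coefficients -/
noncomputable def fS (C : Pts h n → Pts h n → ℝ) (r : ℕ) (m' : ℕ) (u : Fin n → Z (G m) h)
    (y : Fin n → G m') : ℝ :=
  ∑ v : Fin n → Z (G m') h,
    if namn (kapn u) v = y then C (Sum.inr ⟨m, u⟩) (Sum.inr ⟨m', v⟩) * chi r (kapn u) (kapn v)
    else 0

lemma pairing (N : Finset (Pts h n)) (C : Pts h n → Pts h n → ℝ)
    (hN : ∀ u p, p ∉ N → C u p = 0) (hm : ∀ m' v, (Sum.inr ⟨m', v⟩ : Pts h n) ∈ N → m' < m)
    (r : ℕ) (u : Fin n → Z (G m) h) (θT : (Fin n → K h) → ℝ)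
    (θS : ∀ m' : ℕ, (Fin n → G m') → ℝ) :
    prg N C (Sum.inr ⟨m, u⟩) (Theta r (kapn u) θT θS) =
      ∑ b, θT b * fT C r u b + ∑ m' : Fin m, ∑ y, θS m' y * fS C r m' u y := by
  classical
  rw [prg_split N C hN m hm]
  congr 1
  · refine Finset.sum_congr rfl fun b _ => ?_
    simp only [Theta, fT]
    ring
  · refine Finset.sum_congr rfl fun m' _ => ?_
    simp only [fS, Finset.mul_sum]
    rw [Finset.sum_comm]
    refine Finset.sum_congr rfl fun v _ => ?_
    simp only [mul_ite, mul_zero, Finset.sum_ite_eq, Finset.mem_univ, if_true, Theta]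
    ring

/-- killing of terminal coefficients -/
lemma fT_eq_zero (C : Pts h n → Pts h n → ℝ) (r : ℕ) (u : Fin n → Z (G m) h)
    (b : Fin n → K h) (H : ∃ i, r ≤ del (kapn u i) (b i)) : fT C r u b = 0 := by
  obtain ⟨i, hi⟩ := H
  rw [fT, chi_eq_zero i hi, mul_zero]

/-- killing of sheet coefficients -/
lemma fS_eq_zero (C : Pts h n → Pts h n → ℝ) {r : ℕ} (hr : 2 * r + 2 ≤ h) (m' : ℕ)
    (u : Fin n → Z (G m) h) (y : Fin n → G m')
    (H : ∃ i, ∃ x, u i = (x, none, Fin.last h) ∧ mark (q m) x ≠ mark (q m') (y i)) :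
    fS C r m' u y = 0 := by
  obtain ⟨i, x, hu, hx⟩ := H
  unfold fS
  refine Finset.sum_eq_zero fun v _ => ?_
  split_ifs with hv
  · by_cases hz : chi r (kapn u) (kapn v) = 0
    · rw [hz, mul_zero]
    · exfalso
      have h1 := del_lt_of_chi_ne hz i
      simp only [kapn, hu] at h1
      have h2 := nam_mark r hr (mark (q m)) (act (q m')) (mark (q m')) x (v i) h1
      apply hx
      rw [← hv, ← h2]
      simp only [namn, kapn, hu]
  · rfl

/-- the sign of a real number, with values `±1` -/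
noncomputable def sg (x : ℝ) : ℝ := if 0 ≤ x then 1 else -1

lemma sg_mul (x : ℝ) : sg x * x = |x| := by
  unfold sg
  split_ifs with h
  · rw [one_mul, abs_of_nonneg h]
  · rw [abs_of_neg (not_le.mp h)]; ring

lemma abs_sg (x : ℝ) : |sg x| ≤ 1 := by
  unfold sg
  split_ifs <;> simp

lemma prg_sub_left (N : Finset (Pts h n)) (C : Pts h n → Pts h n → ℝ) (u u' : Pts h n)
    (g : Pts h n → ℝ) : prg N C u g - prg N C u' g = ∑ p ∈ N, (C u p - C u' p) * g p := by
  unfold prg
  rw [← Finset.sum_sub_distrib]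
  exact Finset.sum_congr rfl fun p _ => by ring

lemma prg_sub_right (N : Finset (Pts h n)) (C : Pts h n → Pts h n → ℝ) (u : Pts h n)
    (g g' : Pts h n → ℝ) : prg N C u g - prg N C u g' = prg N C u (fun p => g p - g' p) := by
  unfold prg
  rw [← Finset.sum_sub_distrib]
  exact Finset.sum_congr rfl fun p _ => by ring

lemma prg_smul (N : Finset (Pts h n)) (C : Pts h n → Pts h n → ℝ) (u : Pts h n)
    (c : ℝ) (g : Pts h n → ℝ) : prg N C u (fun p => c * g p) = c * prg N C u g := by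
  unfold prg
  rw [Finset.mul_sum]
  exact Finset.sum_congr rfl fun p _ => by ring

section est

variable {r ρ : ℕ} {N : Finset (Pts h n)} {C : Pts h n → Pts h n → ℝ} {L : ℝ}
  (hLip : ∀ g ∈ TestS h n r ρ, ∀ u u' : Pts h n, ∀ M : ℝ, 0 ≤ M →
      (∀ g' ∈ TestS h n r ρ, |g' u - g' u'| ≤ M) →
      |∑ p ∈ N, (C u p - C u' p) * g p| ≤ L * M + 1 / 4)
  (hT : ∀ b : Fin n → K h, ∀ g ∈ TestS h n r ρ,
      |∑ p ∈ N, C (Sum.inl b) p * g p - g (Sum.inl b)| ≤ 1 / 4)
include hLip hT

/-- comparison with the terminal below -/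
lemma term_cmp (u : Fin n → Z (G m) h) (g : Pts h n → ℝ) (hg : g ∈ TestS h n r ρ) :
    |prg N C (Sum.inr ⟨m, u⟩) g - g (Sum.inl (kapn u))| ≤ L * ρ + 1 / 2 := by
  have h1 := hLip g hg (Sum.inr ⟨m, u⟩) (Sum.inl (kapn u)) ρ (Nat.cast_nonneg _)
    (fun g' hg' => hg'.2.2 m u)
  rw [← prg_sub_left] at h1
  have h2 := hT (kapn u) g hg
  have h3 : |prg N C (Sum.inl (kapn u)) g - g (Sum.inl (kapn u))| ≤ 1 / 4 := h2
  rw [abs_le] at *
  constructor <;> linarith [h1.1, h1.2, h3.1, h3.2]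

omit hT in
/-- comparison of adjacent points -/
lemma step_cmp (u : Fin n → Z (G m) h) (w : Fin n → Step h) (e : Fin n → Bool) (g : Pts h n → ℝ)
    (hg : g ∈ TestS h n r ρ) :
    |prg N C (Sum.inr ⟨m, u⟩) g - prg N C (Sum.inr ⟨m, stepn w e u⟩) g| ≤ L + 1 / 4 := by
  have h1 := hLip g hg (Sum.inr ⟨m, u⟩) (Sum.inr ⟨m, stepn w e u⟩) 1 zero_le_one
    (fun g' hg' => hg'.2.1 m u w e)
  rw [← prg_sub_left, mul_one] at h1
  exact h1

lemma mass_le (hN : ∀ u p, p ∉ N → C u p = 0)
    (hm : ∀ m' v, (Sum.inr ⟨m', v⟩ : Pts h n) ∈ N → m' < m) (hr : 1 ≤ r)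
    (hA : L * ρ + 1 / 2 ≤ r / 32)
    (u : Fin n → Z (G m) h) :
    31 / 32 ≤ ∑ b, |fT C r u b| + ∑ m' : Fin m, ∑ y, |fS C r m' u y| := by
  have hr' : (0 : ℝ) < r := by exact_mod_cast hr
  have h1 := term_cmp hLip hT u _ (mass_mem_TestS (ρ := ρ) hr (kapn u))
  have e1 : (fun p : Pts h n => (r : ℝ) * chi r (kapn u) (kn p)) =
      fun p => (r : ℝ) * Theta r (kapn u) (fun _ => 1) (fun _ _ => 1) p := by
    funext p
    rcases p with b | ⟨m', v⟩ <;> simp [Theta, kn]
  have e2 : (r : ℝ) * chi r (kapn u) (kn (Sum.inl (kapn u) : Pts h n)) = r := by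
    simp [kn, chi_self hr]
  simp only [e2] at h1
  rw [e1, prg_smul, pairing N C hN hm] at h1
  simp only [one_mul] at h1
  have h2 : ∑ b, fT C r u b ≤ ∑ b, |fT C r u b| :=
    Finset.sum_le_sum fun b _ => le_abs_self _
  have h3 : ∑ m' : Fin m, ∑ y, fS C r m' u y ≤ ∑ m' : Fin m, ∑ y, |fS C r m' u y| :=
    Finset.sum_le_sum fun m' _ => Finset.sum_le_sum fun y _ => le_abs_self _
  have h4 := (abs_le.mp h1).1
  have h5 : (r : ℝ) * (31 / 32) ≤
      r * (∑ b, fT C r u b + ∑ m' : Fin m, ∑ y, fS C r m' u y) := by linarith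
  have h6 := le_of_mul_le_mul_left h5 hr'
  linarith

lemma var_le (hN : ∀ u p, p ∉ N → C u p = 0)
    (hm : ∀ m' v, (Sum.inr ⟨m', v⟩ : Pts h n) ∈ N → m' < m) (hρ : 1 ≤ ρ) (hρr : ρ ≤ r)
    (hh : 2 * r + 2 ≤ h) (hA : L * ρ + 1 ≤ r * (5 / 256)) (hB : L + 1 / 4 ≤ ρ * (5 / 256))
    (u : Fin n → Z (G m) h) (w : Fin n → Step h) (e : Fin n → Bool) :
    ∑ b, |fT C r u b - fT C r (stepn w e u) b| +
      ∑ m' : Fin m, ∑ y, |fS C r m' u y - fS C r m' (stepn w e u) (tran m' w e u y)| ≤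
      5 / 64 := by
  have hr : 1 ≤ r := hρ.trans hρr
  have hr' : (0 : ℝ) < r := by exact_mod_cast hr
  have hρ' : (0 : ℝ) < ρ := by exact_mod_cast hρ
  set u' := stepn w e u with hu'
  let θT : (Fin n → K h) → ℝ := fun b => sg (fT C r u b - fT C r u' b)
  let θS : ∀ m' : ℕ, (Fin n → G m') → ℝ := fun m' y =>
    sg (fS C r m' u y - fS C r m' u' (tran m' w e u y))
  have hθT : ∀ b, |θT b| ≤ 1 := fun b => abs_sg _
  have hθS : ∀ m' y, |θS m' y| ≤ 1 := fun m' y => abs_sg _
  let Θ : Pts h n → ℝ := Theta r (kapn u) θT θS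
  let Θ' : Pts h n → ℝ := Theta r (kapn u') θT (fun m' y => θS m' ((tran m' w e u).symm y))
  have e1 : ∑ b, |fT C r u b - fT C r u' b| +
      ∑ m' : Fin m, ∑ y, |fS C r m' u y - fS C r m' u' (tran m' w e u y)| =
      prg N C (Sum.inr ⟨m, u⟩) Θ - prg N C (Sum.inr ⟨m, u'⟩) Θ' := by
    rw [pairing N C hN hm, pairing N C hN hm]
    have e2 : ∀ m' : Fin m, ∑ y, θS m' ((tran m' w e u).symm y) * fS C r m' u' y =
        ∑ y, θS m' y * fS C r m' u' (tran m' w e u y) := by
      intro m'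
      refine (Fintype.sum_equiv (tran (m' : ℕ) w e u) _ _ fun y => ?_).symm
      rw [Equiv.symm_apply_apply]
    simp only [e2]
    rw [add_sub_add_comm, ← Finset.sum_sub_distrib, ← Finset.sum_sub_distrib]
    congr 1
    · refine Finset.sum_congr rfl fun b _ => ?_
      rw [← mul_sub, sg_mul]
    · refine Finset.sum_congr rfl fun m' _ => ?_
      rw [← Finset.sum_sub_distrib]
      refine Finset.sum_congr rfl fun y _ => ?_
      rw [← mul_sub, sg_mul]
  rw [e1]
  -- first difference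
  have h1 := step_cmp hLip u w e _ (Theta_mem_TestS hr hρr hh (kapn u) θT θS hθT hθS)
  rw [prg_smul, prg_smul, ← mul_sub, abs_mul, abs_of_nonneg (by positivity : (0 : ℝ) ≤ ρ / 2)] at h1
  have h1' : prg N C (Sum.inr ⟨m, u⟩) Θ - prg N C (Sum.inr ⟨m, u'⟩) Θ ≤ 5 / 128 := by
    have h2 : (ρ : ℝ) / 2 * (prg N C (Sum.inr ⟨m, u⟩) Θ - prg N C (Sum.inr ⟨m, u'⟩) Θ) ≤
        ρ / 2 * (5 / 128) := by
      refine le_trans (mul_le_mul_of_nonneg_left (le_abs_self _) (by positivity)) ?_
      refine h1.trans ?_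
      linarith
    exact le_of_mul_le_mul_left h2 (by positivity)
  -- second difference
  have hΨ : ∀ p, |Θ p - Θ' p| ≤ 1 / r := fun p => Theta_sub hr hh u w e θT θS hθT hθS p
  have hΨ2 : ∀ p, |(r : ℝ) / 2 * (Θ p - Θ' p)| ≤ 1 / 2 := by
    intro p
    rw [abs_mul, abs_of_nonneg (by positivity : (0 : ℝ) ≤ r / 2)]
    calc (r : ℝ) / 2 * |Θ p - Θ' p| ≤ r / 2 * (1 / r) := by gcongr; exact hΨ p
      _ = 1 / 2 := by field_simp
  have h3 := term_cmp hLip hT u' _ (small_mem_TestS hr hρ _ hΨ2)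
  rw [prg_smul] at h3
  have h4 := hΨ2 (Sum.inl (kapn u'))
  have h5 : prg N C (Sum.inr ⟨m, u'⟩) (fun p => Θ p - Θ' p) ≤ 5 / 128 := by
    have h6 : (r : ℝ) / 2 * prg N C (Sum.inr ⟨m, u'⟩) (fun p => Θ p - Θ' p) ≤
        r / 2 * (5 / 128) := by
      have h7 := (abs_le.mp h3).2
      have h8 := (abs_le.mp h4).2
      linarith
    exact le_of_mul_le_mul_left h6 (by positivity)
  rw [← prg_sub_right] at h5
  linarith

end est

end Crest.Agent.R115
end

-- ▼ part R115/RelT
section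

/-! # Relative property (T) inequality for finite permutation actions (row 115)

For permutations `T1 T2 e1 e2` of a finite set which satisfy the relations of the shears and the
translations of `(ℤ/N)²`, the distance of a function to its average over the translations is
controlled by its variation along the four permutations. -/

set_option autoImplicit false

namespace Crest.Agent.R115.RelT

open Crest.Agent.R137 Crest.Agent.R137.Weyl
open scoped ComplexConjugate

section Fourier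

variable {N : ℕ} [NeZero N]

/-- two dimensional discrete Fourier transform -/
noncomputable def F (u : ZMod N × ZMod N → ℂ) (ξ : ZMod N × ZMod N) : ℂ :=
  ∑ n : ZMod N × ZMod N, e (-(ξ.1 * n.1 + ξ.2 * n.2)) * u n

lemma F_add (u v : ZMod N × ZMod N → ℂ) (ξ : ZMod N × ZMod N) :
    F (fun n => u n + v n) ξ = F u ξ + F v ξ := by
  unfold F; rw [← Finset.sum_add_distrib]
  refine Finset.sum_congr rfl fun n _ => by ring

lemma sum_e2 (d : ZMod N × ZMod N) :
    ∑ ξ : ZMod N × ZMod N, e (ξ.1 * d.1 + ξ.2 * d.2) = if d = 0 then ((N : ℂ) ^ 2) else 0 := by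
  rw [Fintype.sum_prod_type]
  have h : ∀ a : ZMod N, ∑ b : ZMod N, e (a * d.1 + b * d.2) =
      e (a * d.1) * (if d.2 = 0 then (N : ℂ) else 0) := by
    intro a
    rw [← sum_e d.2, Finset.mul_sum]
    refine Finset.sum_congr rfl fun b _ => ?_
    rw [e_add]
  simp only [h]
  rw [← Finset.sum_mul, sum_e]
  rcases d with ⟨d1, d2⟩
  by_cases h1 : d1 = 0 <;> by_cases h2 : d2 = 0 <;> simp [h1, h2, pow_two]

lemma parseval2 (u v : ZMod N × ZMod N → ℂ) :
    ∑ ξ, conj (F u ξ) * F v ξ = (N : ℂ) ^ 2 * ∑ n, conj (u n) * v n := by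
  have h1 : ∀ ξ : ZMod N × ZMod N, conj (F u ξ) * F v ξ =
      ∑ n : ZMod N × ZMod N, ∑ m : ZMod N × ZMod N,
        (conj (u n) * v m) * e (ξ.1 * (n - m).1 + ξ.2 * (n - m).2) := by
    intro ξ
    unfold F
    rw [map_sum, Finset.sum_mul_sum]
    refine Finset.sum_congr rfl fun n _ => Finset.sum_congr rfl fun m _ => ?_
    rw [map_mul, conj_e, neg_neg]
    have : e (ξ.1 * n.1 + ξ.2 * n.2) * e (-(ξ.1 * m.1 + ξ.2 * m.2)) =
        e (ξ.1 * (n - m).1 + ξ.2 * (n - m).2) := by
      rw [← e_add]; congr 1; simp only [Prod.fst_sub, Prod.snd_sub]; ring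
    rw [← this]; ring
  rw [Finset.sum_congr rfl fun ξ _ => h1 ξ, Finset.sum_comm, Finset.mul_sum]
  refine Finset.sum_congr rfl fun n _ => ?_
  rw [Finset.sum_comm]
  simp_rw [← Finset.mul_sum, sum_e2]
  rw [Finset.sum_eq_single n]
  · simp; ring
  · intro m _ hm
    rw [if_neg (sub_ne_zero.mpr hm.symm), mul_zero]
  · simp

/-- the shear of the index set -/
def shear (c : ZMod N) : ZMod N × ZMod N ≃ ZMod N × ZMod N where
  toFun n := (n.1 + 2 * n.2 + c, n.2)
  invFun n := (n.1 - 2 * n.2 - c, n.2)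
  left_inv n := by
    ext
    · simp only; ring
    · rfl
  right_inv n := by
    ext
    · simp only; ring
    · rfl

lemma F_shear (v : ZMod N × ZMod N → ℂ) (c : ZMod N) (ξ : ZMod N × ZMod N) :
    F (fun n => v (n.1 + 2 * n.2 + c, n.2)) ξ = e (ξ.1 * c) * F v (ξ.1, ξ.2 - 2 * ξ.1) := by
  unfold F
  rw [Finset.mul_sum, ← Equiv.sum_comp (shear c)
    (fun n => e (ξ.1 * c) * (e (-((ξ.1, ξ.2 - 2 * ξ.1).1 * n.1 + (ξ.1, ξ.2 - 2 * ξ.1).2 * n.2)) * v n))]
  refine Finset.sum_congr rfl fun n _ => ?_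
  simp only [shear, Equiv.coe_fn_mk]
  rw [← mul_assoc, ← e_add]
  congr 2
  ring

end Fourier

section half

variable {X : Type*} [Fintype X] {N : ℕ} [NeZero N]

/-- the square root of the spectral measure -/
noncomputable def G (f : X → ℝ) (a : ZMod N × ZMod N → Equiv.Perm X) (ξ : ZMod N × ZMod N) : ℝ :=
  Real.sqrt (∑ x, ‖F (fun n => ((f (a n x) : ℝ) : ℂ)) ξ‖ ^ 2)

lemma G_nonneg (f : X → ℝ) (a : ZMod N × ZMod N → Equiv.Perm X) (ξ : ZMod N × ZMod N) :
    0 ≤ G f a ξ := Real.sqrt_nonneg _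

lemma G_sq (f : X → ℝ) (a : ZMod N × ZMod N → Equiv.Perm X) (ξ : ZMod N × ZMod N) :
    G f a ξ ^ 2 = ∑ x, ‖F (fun n => ((f (a n x) : ℝ) : ℂ)) ξ‖ ^ 2 :=
  Real.sq_sqrt (Finset.sum_nonneg fun _ _ => by positivity)

lemma half (f : X → ℝ) (a : ZMod N × ZMod N → Equiv.Perm X) (φ ψ : Equiv.Perm X)
    (hφ : ∀ n x, φ (a n x) = a (n.1 + 2 * n.2, n.2) (φ x))
    (hψ : ∀ n x, ψ (a n x) = a (n.1 + 2 * n.2 + 1, n.2) (φ x)) :
    (N : ℝ) ^ 4 * ∑ x, f x * (f (φ x) + f (ψ x)) ≤
      ∑ ξ : ZMod N × ZMod N, G f a ξ * G f a (ξ.1, ξ.2 - 2 * ξ.1) *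
        (2 * |Real.cos (Real.pi * (ξ.1.val : ℝ) / N)|) := by
  set u : X → ZMod N × ZMod N → ℂ := fun x n => ((f (a n x) : ℝ) : ℂ) with hu
  -- the double sum
  have h1 : ∑ x, ∑ n : ZMod N × ZMod N, conj (u x n) *
      (u (φ x) (n.1 + 2 * n.2, n.2) + u (φ x) (n.1 + 2 * n.2 + 1, n.2)) =
      (N : ℂ) ^ 2 * ((∑ x, f x * (f (φ x) + f (ψ x)) : ℝ) : ℂ) := by
    rw [Finset.sum_comm]
    have : ∀ n : ZMod N × ZMod N, ∑ x, conj (u x n) *
      (u (φ x) (n.1 + 2 * n.2, n.2) + u (φ x) (n.1 + 2 * n.2 + 1, n.2)) =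
       ((∑ x, f x * (f (φ x) + f (ψ x)) : ℝ) : ℂ) := by
      intro n
      rw [← Equiv.sum_comp (a n) (fun x => f x * (f (φ x) + f (ψ x)))]
      rw [Complex.ofReal_sum]
      refine Finset.sum_congr rfl fun x _ => ?_
      rw [hφ, hψ, hu]
      simp only [Complex.conj_ofReal]
      push_cast
      ring
    rw [Finset.sum_congr rfl fun n _ => this n, Finset.sum_const, Finset.card_univ,
      Fintype.card_prod, ZMod.card, nsmul_eq_mul]
    push_cast; ring
  have h2 : ∀ x, (N : ℂ) ^ 2 * ∑ n : ZMod N × ZMod N, conj (u x n) *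
      (u (φ x) (n.1 + 2 * n.2, n.2) + u (φ x) (n.1 + 2 * n.2 + 1, n.2)) =
      ∑ ξ : ZMod N × ZMod N, conj (F (u x) ξ) *
        ((1 + e ξ.1) * F (u (φ x)) (ξ.1, ξ.2 - 2 * ξ.1)) := by
    intro x
    rw [← parseval2]
    refine Finset.sum_congr rfl fun ξ _ => ?_
    rw [F_add]
    have e1 := F_shear (u (φ x)) 0 ξ
    have e2 := F_shear (u (φ x)) 1 ξ
    simp only [add_zero, mul_zero, mul_one, e_zero] at e1 e2
    rw [e1, e2]; ring
  have h3 : (N : ℂ) ^ 4 * ((∑ x, f x * (f (φ x) + f (ψ x)) : ℝ) : ℂ) =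
      ∑ ξ : ZMod N × ZMod N, ∑ x, conj (F (u x) ξ) *
        ((1 + e ξ.1) * F (u (φ x)) (ξ.1, ξ.2 - 2 * ξ.1)) := by
    rw [Finset.sum_comm, ← Finset.sum_congr rfl fun x _ => h2 x, ← Finset.mul_sum, h1]
    ring
  have h4 : (N : ℝ) ^ 4 * ∑ x, f x * (f (φ x) + f (ψ x)) ≤
      ‖∑ ξ : ZMod N × ZMod N, ∑ x, conj (F (u x) ξ) *
        ((1 + e ξ.1) * F (u (φ x)) (ξ.1, ξ.2 - 2 * ξ.1))‖ := by
    rw [← h3]
    have : (N : ℂ) ^ 4 * ((∑ x, f x * (f (φ x) + f (ψ x)) : ℝ) : ℂ) =
      (((N : ℝ) ^ 4 * ∑ x, f x * (f (φ x) + f (ψ x)) : ℝ) : ℂ) := by push_cast; ring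
    rw [this, Complex.norm_real]
    exact Real.le_norm_self _
  refine h4.trans ((norm_sum_le _ _).trans (Finset.sum_le_sum fun ξ _ => ?_))
  refine (norm_sum_le _ _).trans ?_
  have h5 : ∀ x, ‖conj (F (u x) ξ) * ((1 + e ξ.1) * F (u (φ x)) (ξ.1, ξ.2 - 2 * ξ.1))‖ =
      (‖F (u x) ξ‖ * ‖F (u (φ x)) (ξ.1, ξ.2 - 2 * ξ.1)‖) *
        (2 * |Real.cos (Real.pi * (ξ.1.val : ℝ) / N)|) := by
    intro x
    rw [norm_mul, norm_mul, norm_one_add_e, RCLike.norm_conj]; ring
  rw [Finset.sum_congr rfl fun x _ => h5 x, ← Finset.sum_mul]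
  refine mul_le_mul_of_nonneg_right ?_ (by positivity)
  refine (Real.sum_mul_le_sqrt_mul_sqrt _ _ _).trans (le_of_eq ?_)
  unfold G
  congr 2
  exact Equiv.sum_comp φ (fun x => ‖F (u x) (ξ.1, ξ.2 - 2 * ξ.1)‖ ^ 2)

lemma sum_G_sq (f : X → ℝ) (a : ZMod N × ZMod N → Equiv.Perm X) :
    ∑ ξ : ZMod N × ZMod N, G f a ξ ^ 2 = (N : ℝ) ^ 4 * ∑ x, f x ^ 2 := by
  simp_rw [G_sq]
  rw [Finset.sum_comm]
  have h : ∀ x, ∑ ξ : ZMod N × ZMod N, ‖F (fun n => ((f (a n x) : ℝ) : ℂ)) ξ‖ ^ 2 =
      (N : ℝ) ^ 2 * ∑ n, f (a n x) ^ 2 := by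
    intro x
    have := parseval2 (N := N) (fun n => ((f (a n x) : ℝ) : ℂ)) (fun n => ((f (a n x) : ℝ) : ℂ))
    have h2 : ((∑ ξ : ZMod N × ZMod N, ‖F (fun n => ((f (a n x) : ℝ) : ℂ)) ξ‖ ^ 2 : ℝ) : ℂ) =
      (((N : ℝ) ^ 2 * ∑ n, f (a n x) ^ 2 : ℝ) : ℂ) := by
      push_cast
      rw [← Finset.sum_congr rfl fun ξ _ => Complex.conj_mul' _]
      rw [this]
      congr 1
      refine Finset.sum_congr rfl fun n _ => ?_
      rw [Complex.conj_ofReal]; ring
    exact_mod_cast h2
  simp_rw [h]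
  rw [← Finset.mul_sum, Finset.sum_comm]
  have h3 : ∀ n, ∑ x, f (a n x) ^ 2 = ∑ x, f x ^ 2 := fun n => Equiv.sum_comp (a n) (fun x => f x ^ 2)
  simp_rw [h3]
  rw [Finset.sum_const, Finset.card_univ, Fintype.card_prod, ZMod.card, nsmul_eq_mul]
  push_cast; ring

lemma G_zero_sq (f : X → ℝ) (a : ZMod N × ZMod N → Equiv.Perm X) :
    G f a (0, 0) ^ 2 = ∑ x, (∑ n, f (a n x)) ^ 2 := by
  rw [G_sq]
  refine Finset.sum_congr rfl fun x _ => ?_
  unfold F
  simp only [zero_mul, add_zero, neg_zero, e_zero, one_mul]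
  rw [← Complex.ofReal_sum, Complex.norm_real, Real.norm_eq_abs, sq_abs]

end half

section main

variable {X : Type*} [Fintype X] {N : ℕ} [NeZero N]

/-- the action of `(ℤ/N)²` by the two commuting permutations -/
def act (e1 e2 : Equiv.Perm X) (n : ZMod N × ZMod N) : Equiv.Perm X :=
  e1 ^ n.1.val * e2 ^ n.2.val



variable {T1 T2 e1 e2 : Equiv.Perm X}









/-- the squared variation along a permutation -/
noncomputable def var (f : X → ℝ) (s : Equiv.Perm X) : ℝ := ∑ x, (f (s x) - f x) ^ 2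

lemma var_nonneg (f : X → ℝ) (s : Equiv.Perm X) : 0 ≤ var f s :=
  Finset.sum_nonneg fun _ _ => by positivity

lemma var_eq (f : X → ℝ) (s : Equiv.Perm X) :
    var f s = 2 * ∑ x, f x ^ 2 - 2 * ∑ x, f x * f (s x) := by
  unfold var
  have h : ∑ x, f (s x) ^ 2 = ∑ x, f x ^ 2 := Equiv.sum_comp s (fun x => f x ^ 2)
  have : ∀ x, (f (s x) - f x) ^ 2 = f (s x) ^ 2 + f x ^ 2 - 2 * (f x * f (s x)) := fun x => by ring
  rw [Finset.sum_congr rfl fun x _ => this x, Finset.sum_sub_distrib, Finset.sum_add_distrib, h,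
    ← Finset.mul_sum]
  ring

lemma var_shift (f : X → ℝ) (s t : Equiv.Perm X) :
    ∑ x, (f (s (t x)) - f (t x)) ^ 2 = var f s :=
  Equiv.sum_comp t (fun x => (f (s x) - f x) ^ 2)





end main

end Crest.Agent.R115.RelT
end

-- ▼ part R115/Margulis
section

/-!
Task T1: Gabber--Galil / Margulis inequality on `(ZMod N)²`, constant `40² = 1600`.
-/

set_option autoImplicit false

namespace Crest.Agent.R115

open Finset

lemma corr_torus (N : ℕ) [NeZero N] (F : ZMod N × ZMod N → ℝ) (hF : ∑ z, F z = 0) :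
    ∑ x, F x * (F (gen N 2 x) + F (gen N 0 (gen N 2 x))) +
      ∑ x, F x * (F (gen N 3 x) + F (gen N 1 (gen N 3 x))) ≤ 3.65 * ∑ x, F x ^ 2 := by
  have hN : (0 : ℝ) < N := by exact_mod_cast Nat.pos_of_ne_zero (NeZero.ne N)
  set a : ZMod N × ZMod N → Equiv.Perm (ZMod N × ZMod N) := fun n => Equiv.addLeft n with ha
  have H1 := RelT.half F a (gen N 2) (gen N 0 * gen N 2)
    (by
      intro n x
      simp only [ha, gen, Equiv.coe_addLeft, Equiv.coe_fn_mk, Prod.ext_iff, Prod.fst_add,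
        Prod.snd_add, and_true]
      ring)
    (by
      intro n x
      simp only [ha, gen, Equiv.Perm.mul_apply, Equiv.coe_addLeft, Equiv.coe_fn_mk, Prod.ext_iff,
        Prod.fst_add, Prod.snd_add, and_true]
      ring)
  have H2 := RelT.half F (fun n => a (n.2, n.1)) (gen N 3) (gen N 1 * gen N 3)
    (by
      intro n x
      simp only [ha, gen, Equiv.coe_addLeft, Equiv.coe_fn_mk, Prod.ext_iff, Prod.fst_add,
        Prod.snd_add, true_and]
      ring)
    (by
      intro n x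
      simp only [ha, gen, Equiv.Perm.mul_apply, Equiv.coe_addLeft, Equiv.coe_fn_mk, Prod.ext_iff,
        Prod.fst_add, Prod.snd_add, true_and]
      ring)
  simp only [Equiv.Perm.mul_apply] at H1 H2
  have hG' : ∀ ξ : ZMod N × ZMod N, RelT.G F (fun n => a (n.2, n.1)) ξ = RelT.G F a (ξ.2, ξ.1) := by
    intro ξ
    unfold RelT.G
    congr 1
    refine Finset.sum_congr rfl fun x _ => ?_
    congr 2
    unfold RelT.F
    rw [← Equiv.sum_comp (Equiv.prodComm (ZMod N) (ZMod N))]
    refine Finset.sum_congr rfl fun n _ => ?_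
    simp only [Equiv.prodComm_apply, Prod.fst_swap, Prod.snd_swap]
    congr 2
    ring
  have R1 : ∑ ξ : ZMod N × ZMod N, RelT.G F a ξ * RelT.G F a (ξ.1, ξ.2 - 2 * ξ.1) *
        (2 * |Real.cos (Real.pi * (ξ.1.val : ℝ) / N)|) =
      ∑ z : ZMod N × ZMod N, RelT.G F a z * RelT.G F a (z.1, z.2 + 2 * z.1) *
        (2 * |Real.cos (Real.pi * (z.1.val : ℝ) / N)|) := by
    let S : ZMod N × ZMod N ≃ ZMod N × ZMod N :=
      { toFun := fun z => (z.1, z.2 + 2 * z.1)
        invFun := fun z => (z.1, z.2 - 2 * z.1)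
        left_inv := fun z => by ext <;> simp
        right_inv := fun z => by ext <;> simp }
    rw [← Equiv.sum_comp S]
    refine Finset.sum_congr rfl fun z _ => ?_
    simp only [S, Equiv.coe_fn_mk, add_sub_cancel_right]
    ring
  have R2 : ∑ ξ : ZMod N × ZMod N, RelT.G F (fun n => a (n.2, n.1)) ξ *
        RelT.G F (fun n => a (n.2, n.1)) (ξ.1, ξ.2 - 2 * ξ.1) *
        (2 * |Real.cos (Real.pi * (ξ.1.val : ℝ) / N)|) =
      ∑ z : ZMod N × ZMod N, RelT.G F a z * RelT.G F a (z.1 + 2 * z.2, z.2) *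
        (2 * |Real.cos (Real.pi * (z.2.val : ℝ) / N)|) := by
    let S : ZMod N × ZMod N ≃ ZMod N × ZMod N :=
      { toFun := fun z => (z.2, z.1 + 2 * z.2)
        invFun := fun z => (z.2 - 2 * z.1, z.1)
        left_inv := fun z => by ext <;> simp
        right_inv := fun z => by ext <;> simp }
    rw [← Equiv.sum_comp S]
    refine Finset.sum_congr rfl fun z _ => ?_
    simp only [hG', S, Equiv.coe_fn_mk, add_sub_cancel_right]
    ring
  have GG := R137.gabberGalil N (RelT.G F a) (RelT.G_nonneg F a)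
  rw [RelT.sum_G_sq, RelT.G_zero_sq] at GG
  have hz : ∀ x : ZMod N × ZMod N, ∑ n : ZMod N × ZMod N, F (a n x) = 0 := by
    intro x
    rw [← hF, ← Equiv.sum_comp (Equiv.addRight x) F]
    rfl
  rw [R1] at H1
  rw [R2] at H2
  simp only [hz] at GG
  have hN4 : (0 : ℝ) < (N : ℝ) ^ 4 := by positivity
  refine le_of_mul_le_mul_left ?_ hN4
  rw [mul_add]
  refine (add_le_add H1 H2).trans (GG.trans (le_of_eq ?_))
  simp only [Finset.sum_const_zero, ne_eq, OfNat.ofNat_ne_zero, not_false_eq_true, zero_pow, mul_zero, add_zero]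
  ring

theorem margulis (N : ℕ) [NeZero N] (F : ZMod N × ZMod N → ℝ) (hF : ∑ z, F z = 0) (E : ℝ)
    (hE : ∀ s : Fin 4, ∑ z, (F (gen N s z) - F z) ^ 2 ≤ E) :
    ∑ z, F z ^ 2 ≤ 1600 * E := by
  have c := corr_torus N F hF
  have v1 := RelT.var_eq F (gen N 2)
  have v2 := RelT.var_eq F (gen N 0 * gen N 2)
  have v3 := RelT.var_eq F (gen N 3)
  have v4 := RelT.var_eq F (gen N 1 * gen N 3)
  have two : ∀ s t : Equiv.Perm (ZMod N × ZMod N), RelT.var F (s * t) ≤
      2 * RelT.var F s + 2 * RelT.var F t := by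
    intro s t
    have h1 := RelT.var_shift F s t
    have h2 : ∀ x, (F ((s * t) x) - F x) ^ 2 ≤
        2 * (F (s (t x)) - F (t x)) ^ 2 + 2 * (F (t x) - F x) ^ 2 := by
      intro x
      rw [Equiv.Perm.mul_apply]
      nlinarith [sq_nonneg ((F (s (t x)) - F (t x)) - (F (t x) - F x))]
    calc RelT.var F (s * t) ≤ ∑ x, (2 * (F (s (t x)) - F (t x)) ^ 2 + 2 * (F (t x) - F x) ^ 2) :=
          Finset.sum_le_sum fun x _ => h2 x
      _ = _ := by
          rw [Finset.sum_add_distrib, ← Finset.mul_sum, ← Finset.mul_sum, h1]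
          rfl
  have w2 := two (gen N 0) (gen N 2)
  have w4 := two (gen N 1) (gen N 3)
  have E0 : RelT.var F (gen N 0) ≤ E := hE 0
  have E1 : RelT.var F (gen N 1) ≤ E := hE 1
  have E2 : RelT.var F (gen N 2) ≤ E := hE 2
  have E3 : RelT.var F (gen N 3) ≤ E := hE 3
  have n0 := RelT.var_nonneg F (gen N 0)
  simp only [Equiv.Perm.mul_apply] at v2 v4
  simp only [mul_add, Finset.sum_add_distrib] at c
  linarith

end Crest.Agent.R115
end

-- ▼ part R115/PairGap
section

/-!
Task T2: gap on pairs `G m × G m'`, uniform in `m ≠ m'`, for functions small on mismatched marks.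
-/

set_option autoImplicit false

namespace Crest.Agent.R115

open Finset

/-- the equivariant identification -/
noncomputable def pairEquiv {a b : ℕ} (h : Nat.Coprime a b) :
    ZMod (a * b) × ZMod (a * b) ≃ (ZMod a × ZMod a) × (ZMod b × ZMod b) where
  toFun z := (((ZMod.chineseRemainder h z.1).1, (ZMod.chineseRemainder h z.2).1),
    ((ZMod.chineseRemainder h z.1).2, (ZMod.chineseRemainder h z.2).2))
  invFun z := ((ZMod.chineseRemainder h).symm (z.1.1, z.2.1),
    (ZMod.chineseRemainder h).symm (z.1.2, z.2.2))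
  left_inv z := by
    ext <;> simp
  right_inv z := by
    ext <;> simp

lemma pairEquiv_gen {a b : ℕ} (h : Nat.Coprime a b) (s : Fin 4) (z : ZMod (a * b) × ZMod (a * b)) :
    pairEquiv h (gen (a * b) s z) = (gen a s (pairEquiv h z).1, gen b s (pairEquiv h z).2) := by
  have h2 : (ZMod.chineseRemainder h) 2 = (2, 2) := by
    rw [map_ofNat]; rfl
  fin_cases s <;> simp [pairEquiv, gen, h2]

lemma card_lt (p : ℕ) [NeZero p] :
    (p : ℝ) / 2 ≤ ((univ.filter fun x : ZMod p => 2 * x.val < p).card : ℝ) := by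
  have hp : 0 < p := Nat.pos_of_ne_zero (NeZero.ne p)
  have h : (univ.filter fun x : ZMod p => 2 * x.val < p).card =
      ((Finset.range p).filter fun k => 2 * k < p).card := by
    refine Finset.card_bij (fun (a : ZMod p) _ => a.val) ?_ ?_ ?_
    · intro a ha
      simp only [mem_filter, mem_univ, true_and] at ha
      simp only [mem_filter, mem_range]
      exact ⟨ZMod.val_lt a, ha⟩
    · intro a _ b _ hab; exact ZMod.val_injective p hab
    · intro b hb
      simp only [mem_filter, mem_range] at hb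
      refine ⟨(b : ZMod p), ?_, ZMod.val_cast_of_lt hb.1⟩
      simp only [mem_filter, mem_univ, true_and]
      rw [ZMod.val_cast_of_lt hb.1]; exact hb.2
  have h2 : Finset.range ((p + 1) / 2) ⊆ (Finset.range p).filter fun k => 2 * k < p := by
    intro k hk
    simp only [mem_range] at hk
    simp only [mem_filter, mem_range]
    omega
  have h3 := Finset.card_le_card h2
  rw [Finset.card_range] at h3
  rw [h]
  have h4 : p ≤ 2 * ((Finset.range p).filter fun k => 2 * k < p).card := by omega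
  have h5 : (p : ℝ) ≤ 2 * (((Finset.range p).filter fun k => 2 * k < p).card : ℝ) := by
    exact_mod_cast h4
  linarith

lemma card_not_lt (p : ℕ) (hp : 2 ≤ p) [NeZero p] :
    (p : ℝ) / 3 ≤ ((univ.filter fun x : ZMod p => ¬ (2 * x.val < p)).card : ℝ) := by
  have h : (univ.filter fun x : ZMod p => ¬ (2 * x.val < p)).card =
      ((Finset.range p).filter fun k => ¬ (2 * k < p)).card := by
    refine Finset.card_bij (fun (a : ZMod p) _ => a.val) ?_ ?_ ?_
    · intro a ha
      simp only [mem_filter, mem_univ, true_and] at ha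
      simp only [mem_filter, mem_range]
      exact ⟨ZMod.val_lt a, ha⟩
    · intro a _ b _ hab; exact ZMod.val_injective p hab
    · intro b hb
      simp only [mem_filter, mem_range] at hb
      refine ⟨(b : ZMod p), ?_, ZMod.val_cast_of_lt hb.1⟩
      simp only [mem_filter, mem_univ, true_and]
      rw [ZMod.val_cast_of_lt hb.1]; exact hb.2
  have h2 : (Finset.range p) \ (Finset.range ((p + 1) / 2)) ⊆
      (Finset.range p).filter fun k => ¬ (2 * k < p) := by
    intro k hk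
    simp only [mem_sdiff, mem_range] at hk
    simp only [mem_filter, mem_range]
    omega
  have h3 := Finset.card_le_card h2
  rw [Finset.card_sdiff_of_subset (by intro k; simp only [mem_range]; omega), Finset.card_range,
    Finset.card_range] at h3
  rw [h]
  have h4 : p ≤ 3 * ((Finset.range p).filter fun k => ¬ (2 * k < p)).card := by omega
  have h5 : (p : ℝ) ≤ 3 * (((Finset.range p).filter fun k => ¬ (2 * k < p)).card : ℝ) := by
    exact_mod_cast h4
  linarith

lemma card_mark_true (p : ℕ) [NeZero p] :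
    (p : ℝ) ^ 2 / 2 ≤ ((univ.filter fun x : ZMod p × ZMod p => mark p x = true).card : ℝ) := by
  have h : (univ.filter fun x : ZMod p × ZMod p => mark p x = true) =
      (univ.filter fun x : ZMod p => 2 * x.val < p) ×ˢ (univ : Finset (ZMod p)) := by
    ext x
    simp [mark]
  rw [h, Finset.card_product, Finset.card_univ, ZMod.card]
  have := card_lt p
  have hp : (0 : ℝ) < p := by exact_mod_cast Nat.pos_of_ne_zero (NeZero.ne p)
  push_cast
  nlinarith

lemma card_mark_false (p : ℕ) (hp2 : 2 ≤ p) [NeZero p] :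
    (p : ℝ) ^ 2 / 3 ≤ ((univ.filter fun x : ZMod p × ZMod p => mark p x = false).card : ℝ) := by
  have h : (univ.filter fun x : ZMod p × ZMod p => mark p x = false) =
      (univ.filter fun x : ZMod p => ¬ (2 * x.val < p)) ×ˢ (univ : Finset (ZMod p)) := by
    ext x
    simp [mark]
  rw [h, Finset.card_product, Finset.card_univ, ZMod.card]
  have := card_not_lt p hp2
  have hp : (0 : ℝ) < p := by exact_mod_cast Nat.pos_of_ne_zero (NeZero.ne p)
  push_cast
  nlinarith

/-- density of the mismatched pairs -/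
lemma card_mismatch (a b : ℕ) (hb2 : 2 ≤ b) [NeZero a] [NeZero b] :
    ((a : ℝ) * b) ^ 2 / 6 ≤ ((univ.filter fun z : (ZMod a × ZMod a) × (ZMod b × ZMod b) =>
      mark a z.1 ≠ mark b z.2).card : ℝ) := by
  have h : (univ.filter fun x : ZMod a × ZMod a => mark a x = true) ×ˢ
      (univ.filter fun x : ZMod b × ZMod b => mark b x = false) ⊆
      (univ.filter fun z : (ZMod a × ZMod a) × (ZMod b × ZMod b) => mark a z.1 ≠ mark b z.2) := by
    intro z hz
    simp only [mem_product, mem_filter, mem_univ, true_and] at hz ⊢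
    rw [hz.1, hz.2]; simp
  have h2 := Finset.card_le_card h
  rw [Finset.card_product] at h2
  have h3 : ((univ.filter fun x : ZMod a × ZMod a => mark a x = true).card : ℝ) *
    ((univ.filter fun x : ZMod b × ZMod b => mark b x = false).card : ℝ) ≤
    ((univ.filter fun z : (ZMod a × ZMod a) × (ZMod b × ZMod b) =>
      mark a z.1 ≠ mark b z.2).card : ℝ) := by exact_mod_cast h2
  refine le_trans ?_ h3
  have e1 := card_mark_true a
  have e2 := card_mark_false b hb2
  calc ((a : ℝ) * b) ^ 2 / 6 = ((a : ℝ) ^ 2 / 2) * ((b : ℝ) ^ 2 / 3) := by ring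
    _ ≤ _ := mul_le_mul e1 e2 (by positivity) (by positivity)

theorem pair_gap' (a b : ℕ) (hb2 : 2 ≤ b) [NeZero a] [NeZero b] (hab : Nat.Coprime a b)
    (F : (ZMod a × ZMod a) × (ZMod b × ZMod b) → ℝ) (E : ℝ)
    (hE : ∀ s : Fin 4, ∑ z, (F (gen a s z.1, gen b s z.2) - F z) ^ 2 ≤ E)
    (hM : ∑ z : (ZMod a × ZMod a) × (ZMod b × ZMod b) with mark a z.1 ≠ mark b z.2,
      F z ^ 2 ≤ E) :
    ∑ z, F z ^ 2 ≤ 30000 * E := by
  have : NeZero (a * b) := ⟨mul_ne_zero (NeZero.ne a) (NeZero.ne b)⟩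
  set Φ := pairEquiv hab with hΦ
  have hab0 : (0 : ℝ) < (a : ℝ) * b := by
    have h1 : (0 : ℝ) < a := by exact_mod_cast Nat.pos_of_ne_zero (NeZero.ne a)
    have h2 : (0 : ℝ) < b := by exact_mod_cast Nat.pos_of_ne_zero (NeZero.ne b)
    positivity
  set μ : ℝ := (∑ z, F z) / ((a : ℝ) * b) ^ 2 with hμ
  have hcard : (Fintype.card (ZMod (a * b) × ZMod (a * b)) : ℝ) = ((a : ℝ) * b) ^ 2 := by
    rw [Fintype.card_prod, ZMod.card]; push_cast; ring
  have hcard' : (Fintype.card ((ZMod a × ZMod a) × (ZMod b × ZMod b)) : ℝ) = ((a : ℝ) * b) ^ 2 := by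
    rw [← hcard, Fintype.card_congr Φ]
  have hE0 : 0 ≤ E := le_trans (Finset.sum_nonneg fun _ _ => by positivity) hM
  -- apply margulis
  have h1 := margulis (a * b) (fun z => F (Φ z) - μ)
    (by
      rw [Finset.sum_sub_distrib, Equiv.sum_comp Φ F, Finset.sum_const, Finset.card_univ,
        nsmul_eq_mul, hcard, hμ, mul_div_cancel₀ _ (by positivity), sub_self]) E
    (by
      intro s
      refine le_trans (le_of_eq ?_) (hE s)
      rw [← Equiv.sum_comp Φ (fun z => (F (gen a s z.1, gen b s z.2) - F z) ^ 2)]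
      refine Finset.sum_congr rfl fun z _ => ?_
      rw [hΦ, pairEquiv_gen]
      ring)
  rw [Equiv.sum_comp Φ (fun z => (F z - μ) ^ 2)] at h1
  -- the mean
  have h2 : ((a : ℝ) * b) ^ 2 / 6 * μ ^ 2 ≤ 2 * E + 3200 * E := by
    calc ((a : ℝ) * b) ^ 2 / 6 * μ ^ 2 ≤ ((univ.filter fun z : (ZMod a × ZMod a) × (ZMod b × ZMod b) =>
          mark a z.1 ≠ mark b z.2).card : ℝ) * μ ^ 2 :=
          mul_le_mul_of_nonneg_right (card_mismatch a b hb2) (by positivity)
      _ = ∑ z : (ZMod a × ZMod a) × (ZMod b × ZMod b) with mark a z.1 ≠ mark b z.2, μ ^ 2 := by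
          rw [Finset.sum_const, nsmul_eq_mul]
      _ ≤ ∑ z : (ZMod a × ZMod a) × (ZMod b × ZMod b) with mark a z.1 ≠ mark b z.2,
            (2 * F z ^ 2 + 2 * (F z - μ) ^ 2) := by
          refine Finset.sum_le_sum fun z _ => ?_
          nlinarith [sq_nonneg (2 * F z - μ)]
      _ = 2 * (∑ z : (ZMod a × ZMod a) × (ZMod b × ZMod b) with mark a z.1 ≠ mark b z.2, F z ^ 2) +
          2 * ∑ z : (ZMod a × ZMod a) × (ZMod b × ZMod b) with mark a z.1 ≠ mark b z.2,
            (F z - μ) ^ 2 := by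
          rw [Finset.sum_add_distrib, ← Finset.mul_sum, ← Finset.mul_sum]
      _ ≤ 2 * E + 2 * ∑ z, (F z - μ) ^ 2 := by
          have := Finset.sum_le_sum_of_subset_of_nonneg
            (Finset.filter_subset (fun z : (ZMod a × ZMod a) × (ZMod b × ZMod b) =>
              mark a z.1 ≠ mark b z.2) univ)
            (fun z _ _ => sq_nonneg (F z - μ))
          linarith
      _ ≤ 2 * E + 3200 * E := by linarith
  have h3 : ∑ z, F z ^ 2 = ∑ z, (F z - μ) ^ 2 + ((a : ℝ) * b) ^ 2 * μ ^ 2 := by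
    have e : ∀ z, F z ^ 2 = (F z - μ) ^ 2 + (2 * μ * F z - μ ^ 2) := fun z => by ring
    rw [Finset.sum_congr rfl fun z _ => e z, Finset.sum_add_distrib, Finset.sum_sub_distrib,
      ← Finset.mul_sum, Finset.sum_const, Finset.card_univ, nsmul_eq_mul, hcard']
    have : ∑ z, F z = μ * ((a : ℝ) * b) ^ 2 := by
      rw [hμ, div_mul_cancel₀ _ (by positivity)]
    rw [this]; ring
  rw [h3]
  linarith

theorem pair_gap : ∃ C : ℝ, 0 < C ∧ ∀ m m' : ℕ, m ≠ m' → ∀ (F : G m × G m' → ℝ) (E : ℝ),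
    (∀ s : Fin 4, ∑ z : G m × G m',
      (F (gen (q m) s z.1, gen (q m') s z.2) - F z) ^ 2 ≤ E) →
    (∑ z : G m × G m' with mark (q m) z.1 ≠ mark (q m') z.2, F z ^ 2 ≤ E) →
    ∑ z, F z ^ 2 ≤ C * E := by
  refine ⟨30000, by norm_num, fun m m' hm F E h1 h2 => ?_⟩
  have : NeZero (q m) := ⟨(q_prime m).ne_zero⟩
  have : NeZero (q m') := ⟨(q_prime m').ne_zero⟩
  exact pair_gap' (q m) (q m') (q_prime m').two_le
    ((Nat.coprime_primes (q_prime m) (q_prime m')).mpr fun h => hm (q_injective h)) F E h1 h2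

end Crest.Agent.R115
end

-- ▼ part R115/Ladder
section

/-!
Task T3: "ladder" lemma: comparison along the subdivided arms, for an arbitrary vertex set `S`.
`E` bounds the step energy.
-/

set_option autoImplicit false

namespace Crest.Agent.R115

open Finset

variable {S : Type} [Fintype S]

/-- Minkowski inequality for finite sums of squares -/
lemma ladder_mink (u v : S → ℝ) :
    Real.sqrt (∑ x, (u x + v x) ^ 2) ≤ Real.sqrt (∑ x, u x ^ 2) + Real.sqrt (∑ x, v x ^ 2) := by
  have key := norm_add_le (WithLp.toLp 2 u : EuclideanSpace ℝ S) (WithLp.toLp 2 v)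
  simpa [EuclideanSpace.norm_eq, Real.norm_eq_abs, sq_abs] using key

/-- a single fibre of a step is bounded by the whole step energy -/
lemma ladder_fibre {h : ℕ} (α : Arm → Equiv.Perm S) (g : Z S h → ℝ) (E : ℝ)
    (hE : ∀ w : Step h, ∑ z, (g (stepFun α w z) - g z) ^ 2 ≤ E)
    (w : Step h) (p : Option Arm × Fin (h + 1)) :
    ∑ x : S, (g (stepFun α w (x, p)) - g (x, p)) ^ 2 ≤ E := by
  refine le_trans ?_ (hE w)
  rw [Fintype.sum_prod_type]
  refine Finset.sum_le_sum fun x _ => ?_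
  exact Finset.single_le_sum (f := fun p => (g (stepFun α w (x, p)) - g (x, p)) ^ 2)
    (fun p _ => sq_nonneg _) (Finset.mem_univ p)

lemma ladder_pos_aux {h : ℕ} (α : Arm → Equiv.Perm S) (g : Z S h → ℝ) (E : ℝ)
    (hE : ∀ w : Step h, ∑ z, (g (stepFun α w z) - g z) ^ 2 ≤ E)
    (a : Option Arm) (j : ℕ) (hj : j < h + 1) :
    Real.sqrt (∑ x : S, (g (x, a, ⟨j, hj⟩) - g (x, none, 0)) ^ 2) ≤ ((j : ℝ) + 1) * Real.sqrt E := by
  induction j with
  | zero =>
    have h1 := ladder_fibre α g E hE (Sum.inr (Sum.inl a)) (none, 0)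
    have h2 : ∑ x : S, (g (x, a, ⟨0, hj⟩) - g (x, none, 0)) ^ 2 ≤ E := by
      refine le_trans (le_of_eq ?_) h1
      refine Finset.sum_congr rfl fun x _ => ?_
      simp [stepFun, cenFun]
    simpa using Real.sqrt_le_sqrt h2
  | succ j ih =>
    have ih' := ih (by omega)
    have h1 := ladder_fibre α g E hE (Sum.inl ⟨j, by omega⟩) (a, ⟨j, by omega⟩)
    have h2 : ∑ x : S, (g (x, a, ⟨j + 1, hj⟩) - g (x, a, ⟨j, by omega⟩)) ^ 2 ≤ E := by
      refine le_trans (le_of_eq ?_) h1
      refine Finset.sum_congr rfl fun x _ => ?_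
      have : Equiv.swap (Fin.castSucc (⟨j, by omega⟩ : Fin h)) (Fin.succ (⟨j, by omega⟩ : Fin h))
          (⟨j, by omega⟩ : Fin (h + 1)) = ⟨j + 1, hj⟩ := by
        have : (⟨j, by omega⟩ : Fin (h + 1)) = Fin.castSucc (⟨j, by omega⟩ : Fin h) := rfl
        rw [this, Equiv.swap_apply_left]
        rfl
      simp only [stepFun, posFun, this]
    have h3 := ladder_mink (fun x : S => g (x, a, ⟨j + 1, hj⟩) - g (x, a, ⟨j, by omega⟩))
      (fun x : S => g (x, a, ⟨j, by omega⟩) - g (x, none, 0))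
    simp only [sub_add_sub_cancel] at h3
    refine h3.trans ?_
    have h4 := Real.sqrt_le_sqrt h2
    push_cast
    linarith

theorem ladder_pos' {h : ℕ} (α : Arm → Equiv.Perm S) (g : Z S h → ℝ) (E : ℝ)
    (hE : ∀ w : Step h, ∑ z, (g (stepFun α w z) - g z) ^ 2 ≤ E)
    (a : Option Arm) (i : Fin (h + 1)) :
    Real.sqrt (∑ x : S, (g (x, a, i) - g (x, none, 0)) ^ 2) ≤ ((h : ℝ) + 1) * Real.sqrt E := by
  refine (ladder_pos_aux α g E hE a i.1 i.2).trans ?_
  have : ((i : ℕ) : ℝ) ≤ h := by exact_mod_cast Nat.lt_succ_iff.mp i.2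
  have h0 := Real.sqrt_nonneg E
  nlinarith

lemma ladder_E_nonneg {h : ℕ} (α : Arm → Equiv.Perm S) (g : Z S h → ℝ) (E : ℝ)
    (hE : ∀ w : Step h, ∑ z, (g (stepFun α w z) - g z) ^ 2 ≤ E) : 0 ≤ E :=
  le_trans (Finset.sum_nonneg fun _ _ => sq_nonneg _) (hE (Sum.inr (Sum.inr ())))

theorem ladder_pos {h : ℕ} (α : Arm → Equiv.Perm S) (g : Z S h → ℝ) (E : ℝ)
    (hE : ∀ w : Step h, ∑ z, (g (stepFun α w z) - g z) ^ 2 ≤ E)
    (a : Option Arm) (i : Fin (h + 1)) :
    ∑ x : S, (g (x, a, i) - g (x, none, 0)) ^ 2 ≤ 4 * ((h : ℝ) + 1) ^ 2 * E := by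
  have h0 : 0 ≤ E := ladder_E_nonneg α g E hE
  have h1 := ladder_pos' α g E hE a i
  have h2 : 0 ≤ ∑ x : S, (g (x, a, i) - g (x, none, 0)) ^ 2 :=
    Finset.sum_nonneg fun x _ => sq_nonneg _
  have h3 := mul_self_le_mul_self (Real.sqrt_nonneg _) h1
  rw [Real.mul_self_sqrt h2] at h3
  have h4 : ((h : ℝ) + 1) * Real.sqrt E * (((h : ℝ) + 1) * Real.sqrt E) =
      ((h : ℝ) + 1) ^ 2 * E := by
    calc _ = ((h : ℝ) + 1) ^ 2 * (Real.sqrt E * Real.sqrt E) := by ring
      _ = _ := by rw [Real.mul_self_sqrt h0]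
  have h5 : 0 ≤ ((h : ℝ) + 1) ^ 2 * E := mul_nonneg (sq_nonneg _) h0
  linarith

theorem ladder_act {h : ℕ} (α : Arm → Equiv.Perm S) (g : Z S h → ℝ) (E : ℝ)
    (hE : ∀ w : Step h, ∑ z, (g (stepFun α w z) - g z) ^ 2 ≤ E)
    (a : Arm) :
    ∑ x : S, (g (α a x, none, 0) - g (x, none, 0)) ^ 2 ≤ 100 * ((h : ℝ) + 1) ^ 2 * E := by
  have h0 : 0 ≤ E := ladder_E_nonneg α g E hE
  -- first leg
  have h1 : Real.sqrt (∑ x : S, (g (α a x, some (bar a), Fin.last h) - g (α a x, none, 0)) ^ 2)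
      ≤ ((h : ℝ) + 1) * Real.sqrt E := by
    have := ladder_pos' α g E hE (some (bar a)) (Fin.last h)
    rwa [← Equiv.sum_comp (α a)
      (fun x => (g (x, some (bar a), Fin.last h) - g (x, none, 0)) ^ 2)] at this
  have h1' : Real.sqrt (∑ x : S, (g (α a x, none, 0) - g (α a x, some (bar a), Fin.last h)) ^ 2)
      ≤ ((h : ℝ) + 1) * Real.sqrt E := by
    refine le_trans (le_of_eq ?_) h1
    congr 1
    refine Finset.sum_congr rfl fun x _ => ?_
    ring
  have h2 : Real.sqrt (∑ x : S, (g (α a x, some (bar a), Fin.last h)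
      - g (x, some a, Fin.last h)) ^ 2) ≤ Real.sqrt E := by
    have := ladder_fibre α g E hE (Sum.inr (Sum.inr ())) (some a, Fin.last h)
    refine Real.sqrt_le_sqrt (le_trans (le_of_eq ?_) this)
    refine Finset.sum_congr rfl fun x _ => ?_
    simp [stepFun, glueFun]
  have h3 := ladder_pos' α g E hE (some a) (Fin.last h)
  have m1 := ladder_mink (fun x : S => g (α a x, none, 0) - g (α a x, some (bar a), Fin.last h))
    (fun x : S => (g (α a x, some (bar a), Fin.last h) - g (x, some a, Fin.last h))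
      + (g (x, some a, Fin.last h) - g (x, none, 0)))
  have m2 := ladder_mink
    (fun x : S => g (α a x, some (bar a), Fin.last h) - g (x, some a, Fin.last h))
    (fun x : S => g (x, some a, Fin.last h) - g (x, none, 0))
  have e1 : ∀ x : S, (g (α a x, none, 0) - g (α a x, some (bar a), Fin.last h)) +
      ((g (α a x, some (bar a), Fin.last h) - g (x, some a, Fin.last h))
      + (g (x, some a, Fin.last h) - g (x, none, 0))) = g (α a x, none, 0) - g (x, none, 0) := by
    intro x; ring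
  simp only [e1] at m1
  have h4 : Real.sqrt (∑ x : S, (g (α a x, none, 0) - g (x, none, 0)) ^ 2)
      ≤ (2 * (h : ℝ) + 3) * Real.sqrt E := by
    linarith
  have h5 : 0 ≤ ∑ x : S, (g (α a x, none, 0) - g (x, none, 0)) ^ 2 :=
    Finset.sum_nonneg fun x _ => sq_nonneg _
  have h6 := mul_self_le_mul_self (Real.sqrt_nonneg _) h4
  rw [Real.mul_self_sqrt h5] at h6
  have h7 : (2 * (h : ℝ) + 3) * Real.sqrt E * ((2 * (h : ℝ) + 3) * Real.sqrt E) =
      (2 * (h : ℝ) + 3) ^ 2 * E := by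
    calc _ = (2 * (h : ℝ) + 3) ^ 2 * (Real.sqrt E * Real.sqrt E) := by ring
      _ = _ := by rw [Real.mul_self_sqrt h0]
  have h8 : (2 * (h : ℝ) + 3) ^ 2 ≤ 100 * ((h : ℝ) + 1) ^ 2 := by
    have : (0 : ℝ) ≤ h := Nat.cast_nonneg h
    nlinarith
  have h9 := mul_le_mul_of_nonneg_right h8 h0
  linarith

end Crest.Agent.R115
end

-- ▼ part R115/CoordGap
section

/-!
Task T4: one-coordinate Dirichlet gaps (from `pair_gap`, `ladder_pos`, `ladder_act`).
`c` depends on `h` only.
-/

set_option autoImplicit false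

namespace Crest.Agent.R115

open Finset

/-- From a bound at the centres to a bound everywhere. -/
theorem gap_of_centre {S : Type} [Fintype S] {h : ℕ} (α : Arm → Equiv.Perm S) (g : Z S h → ℝ)
    (E C : ℝ) (hE : ∀ w : Step h, ∑ z, (g (stepFun α w z) - g z) ^ 2 ≤ E)
    (hC : ∑ x : S, g (x, none, 0) ^ 2 ≤ C * E) :
    ∑ z, g z ^ 2 ≤ (9 * ((h : ℝ) + 1)) * (8 * ((h : ℝ) + 1) ^ 2 + 2 * C) * E := by
  have h1 : ∑ z : Z S h, g z ^ 2 = ∑ p : Option Arm × Fin (h + 1), ∑ x : S, g (x, p) ^ 2 := by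
    rw [Fintype.sum_prod_type, Finset.sum_comm]
  rw [h1]
  have h2 : ∀ p : Option Arm × Fin (h + 1), ∑ x : S, g (x, p) ^ 2 ≤
      (8 * ((h : ℝ) + 1) ^ 2 + 2 * C) * E := by
    rintro ⟨a, i⟩
    have h3 := ladder_pos α g E hE a i
    calc ∑ x : S, g (x, a, i) ^ 2
        ≤ ∑ x : S, (2 * (g (x, a, i) - g (x, none, 0)) ^ 2 + 2 * g (x, none, 0) ^ 2) := by
          apply Finset.sum_le_sum
          intro x _
          nlinarith [sq_nonneg (g (x, a, i) - 2 * g (x, none, 0))]
      _ = 2 * ∑ x : S, (g (x, a, i) - g (x, none, 0)) ^ 2 + 2 * ∑ x : S, g (x, none, 0) ^ 2 := by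
          rw [Finset.sum_add_distrib, Finset.mul_sum, Finset.mul_sum]
      _ ≤ 2 * (4 * ((h : ℝ) + 1) ^ 2 * E) + 2 * (C * E) := by gcongr
      _ = (8 * ((h : ℝ) + 1) ^ 2 + 2 * C) * E := by ring
  calc ∑ p : Option Arm × Fin (h + 1), ∑ x : S, g (x, p) ^ 2
      ≤ ∑ _p : Option Arm × Fin (h + 1), (8 * ((h : ℝ) + 1) ^ 2 + 2 * C) * E :=
        Finset.sum_le_sum fun p _ => h2 p
    _ = (9 * ((h : ℝ) + 1)) * (8 * ((h : ℝ) + 1) ^ 2 + 2 * C) * E := by
        rw [Finset.sum_const, Finset.card_univ]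
        simp only [Fintype.card_prod, Fintype.card_option, Fintype.card_fin, Fintype.card_bool,
          nsmul_eq_mul]
        push_cast
        ring

theorem energy_le {S : Type} [Fintype S] {h : ℕ} (α : Arm → Equiv.Perm S) (g : Z S h → ℝ)
    (w : Step h) :
    ∑ z, (g (stepFun α w z) - g z) ^ 2 ≤ ∑ w : Step h, ∑ z, (g z - g (stepFun α w z)) ^ 2 := by
  have h1 : ∑ z, (g (stepFun α w z) - g z) ^ 2 = ∑ z, (g z - g (stepFun α w z)) ^ 2 :=
    Finset.sum_congr rfl fun z _ => by ring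
  rw [h1]
  exact Finset.single_le_sum (f := fun w => ∑ z, (g z - g (stepFun α w z)) ^ 2)
    (fun w _ => Finset.sum_nonneg fun z _ => sq_nonneg _) (Finset.mem_univ w)

/-- sheets: `S = G m × G m'`, killed where the leg ends at mismatched marks -/
theorem gap_sheets (h : ℕ) : ∃ c : ℝ, 0 < c ∧ ∀ m m' : ℕ, m ≠ m' →
    ∀ g : Z (G m × G m') h → ℝ,
    (∀ x : G m × G m', mark (q m) x.1 ≠ mark (q m') x.2 → g (x, none, Fin.last h) = 0) →
    c * ∑ z, g z ^ 2 ≤
      ∑ w : Step h, ∑ z, (g z - g (stepFun (prodAct (act (q m)) (act (q m'))) w z)) ^ 2 := by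
  obtain ⟨C, hC, hpair⟩ := pair_gap
  have hpos : (0 : ℝ) < (9 * ((h : ℝ) + 1)) *
      (8 * ((h : ℝ) + 1) ^ 2 + 2 * (C * (100 * ((h : ℝ) + 1) ^ 2))) := by positivity
  refine ⟨((9 * ((h : ℝ) + 1)) *
      (8 * ((h : ℝ) + 1) ^ 2 + 2 * (C * (100 * ((h : ℝ) + 1) ^ 2))))⁻¹, inv_pos.mpr hpos, ?_⟩
  intro m m' hmm g hg
  set α := prodAct (act (q m)) (act (q m')) with hα
  set E := ∑ w : Step h, ∑ z, (g z - g (stepFun α w z)) ^ 2 with hE
  have hEw : ∀ w : Step h, ∑ z, (g (stepFun α w z) - g z) ^ 2 ≤ E := fun w => energy_le α g w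
  have hE0 : 0 ≤ E := le_trans (Finset.sum_nonneg fun z _ => sq_nonneg _) (hEw (Sum.inr (Sum.inr ())))
  have hF : ∑ x : G m × G m', g (x, none, 0) ^ 2 ≤ C * (100 * ((h : ℝ) + 1) ^ 2 * E) := by
    apply hpair m m' hmm (fun x => g (x, none, 0))
    · intro s
      have := ladder_act α g E hEw (s, true)
      simpa [hα, act] using this
    · have h1 := ladder_pos α g E hEw none (Fin.last h)
      calc ∑ z : G m × G m' with mark (q m) z.1 ≠ mark (q m') z.2, g (z, none, 0) ^ 2
          = ∑ z : G m × G m' with mark (q m) z.1 ≠ mark (q m') z.2,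
              (g (z, none, Fin.last h) - g (z, none, 0)) ^ 2 := by
            apply Finset.sum_congr rfl
            intro z hz
            rw [Finset.mem_filter] at hz
            rw [hg z hz.2]
            ring
        _ ≤ ∑ z : G m × G m', (g (z, none, Fin.last h) - g (z, none, 0)) ^ 2 :=
            Finset.sum_le_sum_of_subset_of_nonneg (Finset.filter_subset _ _)
              fun z _ _ => sq_nonneg _
        _ ≤ 4 * ((h : ℝ) + 1) ^ 2 * E := h1
        _ ≤ 100 * ((h : ℝ) + 1) ^ 2 * E := by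
            have : 0 ≤ ((h : ℝ) + 1) ^ 2 * E := by positivity
            nlinarith
  have hfin := gap_of_centre α g E (C * (100 * ((h : ℝ) + 1) ^ 2)) hEw (by rw [mul_assoc]; exact hF)
  rw [inv_mul_le_iff₀ hpos]
  exact hfin

/-- An arm far from a given point of the type graph. -/
theorem exists_far_arm {h : ℕ} (b : K h) : ∃ a : Arm, h ≤ del ((Sum.inl a, Fin.last h) : K h) b := by
  obtain ⟨t, j⟩ := b
  have key : ∃ a : Arm, (Sum.inl a : Arm ⊕ Bool) ≠ t ∧ ¬ partner (Sum.inl a) t := by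
    rcases t with a' | c
    · obtain ⟨s, e⟩ := a'
      by_cases hs : s = 0
      · refine ⟨(1, true), ?_, ?_⟩
        · subst hs
          simp
        · subst hs
          simp [partner, bar]
      · refine ⟨(0, true), ?_, ?_⟩
        · simp only [ne_eq, Sum.inl.injEq, Prod.mk.injEq, not_and]
          intro h0
          exact absurd h0.symm hs
        · simp only [partner, bar, Prod.mk.injEq, not_and]
          intro h0
          exact absurd h0 hs
    · exact ⟨(0, true), by simp, by simp [partner]⟩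
  obtain ⟨a, h1, h2⟩ := key
  refine ⟨a, ?_⟩
  unfold del
  rw [if_neg h1, if_neg h2]
  simp

/-- terminals: `S = G m × K h` with trivial action on `K h`; killed far from the centre. -/
theorem gap_terminals (h r : ℕ) (hr : 1 ≤ r) (hh : 2 * r ≤ h) : ∃ c : ℝ, 0 < c ∧ ∀ m : ℕ,
    ∀ g : Z (G m × K h) h → ℝ,
    (∀ z : Z (G m × K h) h,
      r ≤ del (kap (fun x : G m × K h => mark (q m) x.1) z) z.1.2 → g z = 0) →
    c * ∑ z, g z ^ 2 ≤
      ∑ w : Step h, ∑ z, (g z - g (stepFun (prodAct (act (q m)) (fun _ => 1)) w z)) ^ 2 := by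
  have hpos : (0 : ℝ) < (9 * ((h : ℝ) + 1)) *
      (8 * ((h : ℝ) + 1) ^ 2 + 2 * (32 * ((h : ℝ) + 1) ^ 2)) := by positivity
  refine ⟨((9 * ((h : ℝ) + 1)) *
      (8 * ((h : ℝ) + 1) ^ 2 + 2 * (32 * ((h : ℝ) + 1) ^ 2)))⁻¹, inv_pos.mpr hpos, ?_⟩
  intro m g hg
  set α : Arm → Equiv.Perm (G m × K h) := prodAct (act (q m)) (fun _ => 1) with hα
  set E := ∑ w : Step h, ∑ z, (g z - g (stepFun α w z)) ^ 2 with hE
  have hEw : ∀ w : Step h, ∑ z, (g (stepFun α w z) - g z) ^ 2 ≤ E := fun w => energy_le α g w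
  have hF : ∑ x : G m × K h, g (x, none, 0) ^ 2 ≤ (32 * ((h : ℝ) + 1) ^ 2) * E := by
    calc ∑ x : G m × K h, g (x, none, 0) ^ 2
        ≤ ∑ x : G m × K h, ∑ a : Arm, (g (x, some a, Fin.last h) - g (x, none, 0)) ^ 2 := by
          apply Finset.sum_le_sum
          intro x _
          obtain ⟨a, ha⟩ := exists_far_arm x.2
          have h0 : g (x, some a, Fin.last h) = 0 := by
            apply hg
            have : kap (fun x : G m × K h => mark (q m) x.1) (x, some a, Fin.last h) =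
              ((Sum.inl a, Fin.last h) : K h) := rfl
            rw [this]
            exact le_trans (by omega) ha
          calc g (x, none, 0) ^ 2 = (g (x, some a, Fin.last h) - g (x, none, 0)) ^ 2 := by
                rw [h0]; ring
            _ ≤ ∑ a : Arm, (g (x, some a, Fin.last h) - g (x, none, 0)) ^ 2 :=
                Finset.single_le_sum
                  (f := fun a : Arm => (g (x, some a, Fin.last h) - g (x, none, 0)) ^ 2)
                  (fun a _ => sq_nonneg _) (Finset.mem_univ a)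
      _ = ∑ a : Arm, ∑ x : G m × K h, (g (x, some a, Fin.last h) - g (x, none, 0)) ^ 2 :=
          Finset.sum_comm
      _ ≤ ∑ _a : Arm, 4 * ((h : ℝ) + 1) ^ 2 * E :=
          Finset.sum_le_sum fun a _ => ladder_pos α g E hEw (some a) (Fin.last h)
      _ = (32 * ((h : ℝ) + 1) ^ 2) * E := by
          rw [Finset.sum_const, Finset.card_univ]
          simp only [Fintype.card_prod, Fintype.card_fin, Fintype.card_bool, nsmul_eq_mul]
          push_cast
          ring
  have hfin := gap_of_centre α g E (32 * ((h : ℝ) + 1) ^ 2) hEw hF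
  rw [inv_mul_le_iff₀ hpos]
  exact hfin

end Crest.Agent.R115
end

-- ▼ part R115/Core
section

/-!
Task T10: the core estimate. `h` arm length, `r` cut-off radius, `ρ` terminal distance,
`n` number of coordinates, `L` the Lipschitz constant.
-/

set_option autoImplicit false

namespace Crest.Agent.R115

open Finset

lemma sum4_comm {α β γ δ : Type} [Fintype α] [Fintype β] [Fintype γ] [Fintype δ]
    (f : α → β → γ → δ → ℝ) :
    ∑ a, ∑ b, ∑ c, ∑ d, f a b c d = ∑ d, ∑ a, ∑ b, ∑ c, f a b c d := by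
  have h1 : ∀ a b, ∑ c, ∑ d, f a b c d = ∑ d, ∑ c, f a b c d := fun a b => Finset.sum_comm
  have h2 : ∀ a, ∑ b, ∑ d, ∑ c, f a b c d = ∑ d, ∑ b, ∑ c, f a b c d := fun a => Finset.sum_comm
  simp only [h1, h2]
  exact Finset.sum_comm

theorem core (L : ℕ) (hL : 1 ≤ L) (ρ r h : ℕ) (hρ : ρ = 64 * L) (hr : r = 64 * L * ρ)
    (hh : h = 2 * r + 2) (c : ℝ) (hc : 0 < c) (hc1 : c ≤ 1)
    (hgS : ∀ m m' : ℕ, m ≠ m' → ∀ g : Z (G m × G m') h → ℝ,
      (∀ x : G m × G m', mark (q m) x.1 ≠ mark (q m') x.2 → g (x, none, Fin.last h) = 0) →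
      c * ∑ z, g z ^ 2 ≤
        ∑ w : Step h, ∑ z, (g z - g (stepFun (prodAct (act (q m)) (act (q m'))) w z)) ^ 2)
    (hgT : ∀ m : ℕ, ∀ g : Z (G m × K h) h → ℝ,
      (∀ z : Z (G m × K h) h,
        r ≤ del (kap (fun x : G m × K h => mark (q m) x.1) z) z.1.2 → g z = 0) →
      c * ∑ z, g z ^ 2 ≤
        ∑ w : Step h, ∑ z, (g z - g (stepFun (prodAct (act (q m)) (fun _ => 1)) w z)) ^ 2)
    (n : ℕ) (hn : (1 - c / (4 * Fintype.card (Step h))) ^ n ≤ 1 / 4)
    (N : Finset (Pts h n)) (C : Pts h n → Pts h n → ℝ)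
    (hN : ∀ u p, p ∉ N → C u p = 0)
    (hLip : ∀ g ∈ TestS h n r ρ, ∀ u u' : Pts h n, ∀ M : ℝ, 0 ≤ M →
      (∀ g' ∈ TestS h n r ρ, |g' u - g' u'| ≤ M) →
      |∑ p ∈ N, (C u p - C u' p) * g p| ≤ L * M + 1 / 4)
    (hT : ∀ b : Fin n → K h, ∀ g ∈ TestS h n r ρ,
      |∑ p ∈ N, C (Sum.inl b) p * g p - g (Sum.inl b)| ≤ 1 / 4) : False := by
  classical
  -- numerical facts
  have hL' : (1 : ℝ) ≤ L := by exact_mod_cast hL
  have hρ' : (ρ : ℝ) = 64 * L := by rw [hρ]; push_cast; ring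
  have hr' : (r : ℝ) = 64 * (L * ρ) := by rw [hr]; push_cast; ring
  have hρ1 : 1 ≤ ρ := by omega
  have hρR : (64 : ℝ) ≤ ρ := by rw [hρ']; linarith
  have hLρ : (64 : ℝ) ≤ L * ρ := by nlinarith
  have hρr : ρ ≤ r := by
    rw [hr]; nlinarith
  have hr1 : 1 ≤ r := hρ1.trans hρr
  have hh' : 2 * r + 2 ≤ h := hh.ge
  -- the level
  obtain ⟨m, hm⟩ : ∃ m : ℕ, ∀ m' v, (Sum.inr ⟨m', v⟩ : Pts h n) ∈ N → m' < m := by
    let lev : Pts h n → ℕ := fun p => match p with
      | Sum.inl _ => 0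
      | Sum.inr ⟨m', _⟩ => m'
    refine ⟨N.sup lev + 1, fun m' v hv => ?_⟩
    have h1 : lev (Sum.inr ⟨m', v⟩) ≤ N.sup lev := Finset.le_sup hv
    exact Nat.lt_succ_of_le h1
  have hcard : (0 : ℝ) < Fintype.card (Step h) := by exact_mod_cast Fintype.card_pos
  set A : ℝ := (2 * (Fintype.card (Step h) : ℝ)) ^ n with hA
  have hApos : 0 < A := by positivity
  -- terminal inequality
  have HT : A * ∑ u : Fin n → Z (G m) h, ∑ b : Fin n → K h, |fT C r u b| ≤
      ∑ w : Fin n → Step h, ∑ e : Fin n → Bool, ∑ u : Fin n → Z (G m) h, ∑ b : Fin n → K h,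
        |fT C r u b - fT C r (stepn w e u) b| := by
    have H := tensor_pairs (h := h) (n := n) (m := m) (Y := K h) (fun _ => 1) (by simp)
      {z | r ≤ del (kap (fun x : G m × K h => mark (q m) x.1) z) z.1.2} c hc hc1
      (fun g hg => hgT m g (fun z hz => hg z hz)) hn (fT C r)
      (by
        rintro u b ⟨i, hi⟩
        apply fT_eq_zero
        refine ⟨i, ?_⟩
        simp only [Set.mem_ofPred_eq, packZ] at hi
        simp only [kapn]
        rcases hu : u i with ⟨x, _ | a, j⟩ <;> simpa [hu, kap] using hi)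
    simpa only [tranY_one] using H
  -- sheet inequality
  have HS : ∀ m' : Fin m, A * ∑ u : Fin n → Z (G m) h, ∑ y : Fin n → G m', |fS C r m' u y| ≤
      ∑ w : Fin n → Step h, ∑ e : Fin n → Bool, ∑ u : Fin n → Z (G m) h, ∑ y : Fin n → G m',
        |fS C r m' u y - fS C r m' (stepn w e u) (tran m' w e u y)| := by
    intro m'
    have H := tensor_pairs (h := h) (n := n) (m := m) (Y := G m') (act (q m')) (act_bar (q m'))
      {z | z.2.1 = none ∧ z.2.2 = Fin.last h ∧ mark (q m) z.1.1 ≠ mark (q m') z.1.2} c hc hc1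
      (fun g hg => hgS m m' (ne_of_gt m'.2) g (fun x hx => hg _ ⟨rfl, rfl, hx⟩)) hn (fS C r m')
      (by
        rintro u y ⟨i, hi1, hi2, hi3⟩
        apply fS_eq_zero C hh'
        refine ⟨i, (u i).1, ?_, hi3⟩
        simp only [packZ] at hi1 hi2
        exact Prod.ext rfl (Prod.ext hi1 hi2))
    simpa only [tranY_act] using H
  -- mass
  have hmass : ∀ u : Fin n → Z (G m) h,
      31 / 32 ≤ ∑ b, |fT C r u b| + ∑ m' : Fin m, ∑ y, |fS C r m' u y| := fun u =>
    mass_le hLip hT hN hm hr1 (by rw [hr']; linarith) u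
  have hvar : ∀ (u : Fin n → Z (G m) h) (w : Fin n → Step h) (e : Fin n → Bool),
      ∑ b, |fT C r u b - fT C r (stepn w e u) b| +
        ∑ m' : Fin m, ∑ y, |fS C r m' u y - fS C r m' (stepn w e u) (tran m' w e u y)| ≤
        5 / 64 := fun u w e =>
    var_le hLip hT hN hm hρ1 hρr hh' (by rw [hr']; linarith) (by rw [hρ']; linarith) u w e
  -- total
  have hU : (0 : ℝ) < Fintype.card (Fin n → Z (G m) h) := by
    have : Nonempty (Fin n → Z (G m) h) := ⟨fun _ => (0, none, 0)⟩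
    exact_mod_cast Fintype.card_pos
  have T1 : A * (Fintype.card (Fin n → Z (G m) h) * (31 / 32)) ≤
      A * ∑ u : Fin n → Z (G m) h, (∑ b, |fT C r u b| + ∑ m' : Fin m, ∑ y, |fS C r m' u y|) := by
    refine mul_le_mul_of_nonneg_left ?_ hApos.le
    rw [← nsmul_eq_mul, ← Finset.card_univ]
    exact Finset.card_nsmul_le_sum _ _ _ fun u _ => hmass u
  have T2 : A * ∑ u : Fin n → Z (G m) h, (∑ b, |fT C r u b| + ∑ m' : Fin m, ∑ y, |fS C r m' u y|) ≤
      ∑ w : Fin n → Step h, ∑ e : Fin n → Bool, ∑ u : Fin n → Z (G m) h,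
        (∑ b, |fT C r u b - fT C r (stepn w e u) b| +
        ∑ m' : Fin m, ∑ y, |fS C r m' u y - fS C r m' (stepn w e u) (tran m' w e u y)|) := by
    simp only [Finset.sum_add_distrib, mul_add]
    refine add_le_add HT ?_
    have e1 : A * ∑ u : Fin n → Z (G m) h, ∑ m' : Fin m, ∑ y, |fS C r m' u y| =
        ∑ m' : Fin m, A * ∑ u : Fin n → Z (G m) h, ∑ y, |fS C r m' u y| := by
      rw [Finset.sum_comm, Finset.mul_sum]
    have e2 : ∑ w : Fin n → Step h, ∑ e : Fin n → Bool, ∑ u : Fin n → Z (G m) h,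
        ∑ m' : Fin m, ∑ y, |fS C r m' u y - fS C r m' (stepn w e u) (tran m' w e u y)| =
        ∑ m' : Fin m, ∑ w : Fin n → Step h, ∑ e : Fin n → Bool, ∑ u : Fin n → Z (G m) h,
          ∑ y, |fS C r m' u y - fS C r m' (stepn w e u) (tran m' w e u y)| := by
      exact sum4_comm fun (w : Fin n → Step h) (e : Fin n → Bool) (u : Fin n → Z (G m) h)
        (m' : Fin m) => ∑ y, |fS C r m' u y - fS C r m' (stepn w e u) (tran m' w e u y)|
    rw [e1, e2]
    exact Finset.sum_le_sum fun m' _ => HS m'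
  have T3 : ∑ w : Fin n → Step h, ∑ e : Fin n → Bool, ∑ u : Fin n → Z (G m) h,
        (∑ b, |fT C r u b - fT C r (stepn w e u) b| +
        ∑ m' : Fin m, ∑ y, |fS C r m' u y - fS C r m' (stepn w e u) (tran m' w e u y)|) ≤
      A * (Fintype.card (Fin n → Z (G m) h) * (5 / 64)) := by
    calc _ ≤ ∑ w : Fin n → Step h, ∑ e : Fin n → Bool, ∑ u : Fin n → Z (G m) h, (5 / 64 : ℝ) :=
          Finset.sum_le_sum fun w _ => Finset.sum_le_sum fun e _ => Finset.sum_le_sum fun u _ =>
            hvar u w e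
      _ = A * (Fintype.card (Fin n → Z (G m) h) * (5 / 64)) := by
        have h1 : ((Fintype.card (Fin n → Step h) : ℕ) : ℝ) = (Fintype.card (Step h) : ℝ) ^ n := by
          rw [Fintype.card_fun, Fintype.card_fin]; push_cast; rfl
        have h2 : ((Fintype.card (Fin n → Bool) : ℕ) : ℝ) = 2 ^ n := by
          rw [Fintype.card_fun, Fintype.card_fin, Fintype.card_bool]; push_cast; rfl
        rw [Finset.sum_const, Finset.sum_const, Finset.sum_const, Finset.card_univ,
          Finset.card_univ, Finset.card_univ]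
        simp only [nsmul_eq_mul]
        rw [h1, h2, hA, mul_pow]
        ring
  have T4 := T1.trans (T2.trans T3)
  have T5 := le_of_mul_le_mul_left T4 hApos
  have T6 := le_of_mul_le_mul_left T5 hU
  norm_num at T6

end Crest.Agent.R115
end

-- ▼ part R115/FamMetric
section

/-!
Task T6: the metric space built from families of test functions.
-/

set_option autoImplicit false

namespace Crest.Agent.R115

open Crest.AnalysisR

/-- A sequence of countable sets `Pt l` with families of test functions `Test l`. -/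
structure Fam where
  Pt : ℕ → Type
  cnt : ∀ l, Countable (Pt l)
  inf : ∃ l, Infinite (Pt l)
  ne : ∀ l, Nonempty (Pt l)
  D : ℕ → ℝ
  one_le_D : ∀ l, 1 ≤ D l
  D_unbdd : ∀ C : ℝ, ∃ l, C ≤ D l
  Test : ∀ l, Set (Pt l → ℝ)
  bdd : ∀ l, ∀ g ∈ Test l, ∀ p, |g p| ≤ D l
  const_mem : ∀ l, (fun _ => D l) ∈ Test l
  nconst_mem : ∀ l, (fun _ => -D l) ∈ Test l
  small_mem : ∀ l, ∀ g : Pt l → ℝ, (∀ p, |g p| ≤ 1 / 2) → g ∈ Test l

namespace Fam

variable (Φ : Fam)

/-- the points: a base point and all `Pt l` -/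
abbrev M : Type := Option (Σ l, Φ.Pt l)

/-- restriction of a function to the `l`-th part -/
def res (g : Φ.M → ℝ) (l : ℕ) : Φ.Pt l → ℝ := fun p => g (some ⟨l, p⟩)

/-- global test functions -/
def GTest : Set (Φ.M → ℝ) := {g | g none = 0 ∧ ∀ l, Φ.res g l ∈ Φ.Test l}

/-- the distance -/
noncomputable def d (x y : Φ.M) : ℝ := ⨆ g : Φ.GTest, |g.1 x - g.1 y|

lemma zero_mem (l : ℕ) : (fun _ => (0 : ℝ)) ∈ Φ.Test l :=
  Φ.small_mem l _ (fun _ => by norm_num)

lemma D_pos (l : ℕ) : 0 < Φ.D l := lt_of_lt_of_le one_pos (Φ.one_le_D l)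

/-- glue functions on the parts to a function on `M` -/
def glue (G : ∀ l, Φ.Pt l → ℝ) : Φ.M → ℝ
  | none => 0
  | some ⟨l, p⟩ => G l p

@[simp] lemma glue_none (G : ∀ l, Φ.Pt l → ℝ) : Φ.glue G none = 0 := rfl

@[simp] lemma glue_some (G : ∀ l, Φ.Pt l → ℝ) (l : ℕ) (p : Φ.Pt l) :
    Φ.glue G (some ⟨l, p⟩) = G l p := rfl

lemma glue_mem (G : ∀ l, Φ.Pt l → ℝ) (hG : ∀ l, G l ∈ Φ.Test l) : Φ.glue G ∈ Φ.GTest :=
  ⟨rfl, fun l => hG l⟩

instance : Nonempty Φ.GTest := ⟨⟨Φ.glue fun _ _ => 0, Φ.glue_mem _ fun l => Φ.zero_mem l⟩⟩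

/-- the size of a point -/
def size : Φ.M → ℝ
  | none => 0
  | some ⟨l, _⟩ => Φ.D l

@[simp] lemma size_none : Φ.size none = 0 := rfl
@[simp] lemma size_some (l : ℕ) (p : Φ.Pt l) : Φ.size (some ⟨l, p⟩) = Φ.D l := rfl

lemma abs_le_size {g : Φ.M → ℝ} (hg : g ∈ Φ.GTest) (x : Φ.M) : |g x| ≤ Φ.size x := by
  rcases x with _ | ⟨l, p⟩
  · rw [hg.1]; simp
  · exact Φ.bdd l _ (hg.2 l) p

lemma bddAbove (x y : Φ.M) : BddAbove (Set.range fun g : Φ.GTest => |g.1 x - g.1 y|) := by
  refine ⟨Φ.size x + Φ.size y, ?_⟩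
  rintro _ ⟨g, rfl⟩
  exact (abs_sub _ _).trans (add_le_add (Φ.abs_le_size g.2 x) (Φ.abs_le_size g.2 y))

lemma le_d {g : Φ.M → ℝ} (hg : g ∈ Φ.GTest) (x y : Φ.M) : |g x - g y| ≤ Φ.d x y :=
  le_ciSup (Φ.bddAbove x y) ⟨g, hg⟩

lemma d_le {x y : Φ.M} {K : ℝ} (h : ∀ g ∈ Φ.GTest, |g x - g y| ≤ K) : Φ.d x y ≤ K :=
  ciSup_le fun g => h g.1 g.2

lemma d_nonneg (x y : Φ.M) : 0 ≤ Φ.d x y :=
  (abs_nonneg _).trans (Φ.le_d (Classical.arbitrary Φ.GTest).2 x y)

lemma d_self (x : Φ.M) : Φ.d x x = 0 :=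
  le_antisymm (Φ.d_le fun g _ => by simp) (Φ.d_nonneg x x)

lemma d_comm (x y : Φ.M) : Φ.d x y = Φ.d y x := by
  unfold d
  congr 1
  funext g
  exact abs_sub_comm _ _

lemma d_triangle (x y z : Φ.M) : Φ.d x z ≤ Φ.d x y + Φ.d y z :=
  Φ.d_le fun _ hg => (abs_sub_le _ _ _).trans (add_le_add (Φ.le_d hg x y) (Φ.le_d hg y z))

lemma d_some_none (l : ℕ) (p : Φ.Pt l) : Φ.d (some ⟨l, p⟩) none = Φ.D l := by
  refine le_antisymm (Φ.d_le fun g hg => ?_) ?_
  · rw [hg.1, sub_zero]; exact Φ.bdd l _ (hg.2 l) p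
  · have h := Φ.le_d (Φ.glue_mem (fun l _ => Φ.D l) fun l => Φ.const_mem l) (some ⟨l, p⟩) none
    rw [glue_some, glue_none, sub_zero, abs_of_pos (Φ.D_pos l)] at h
    exact h

lemma d_none_some (l : ℕ) (p : Φ.Pt l) : Φ.d none (some ⟨l, p⟩) = Φ.D l := by
  rw [d_comm, d_some_none]

lemma d_eq_size (x : Φ.M) : Φ.d x none = Φ.size x := by
  rcases x with _ | ⟨l, p⟩
  · exact Φ.d_self none
  · exact Φ.d_some_none l p

lemma d_of_ne {l l' : ℕ} (h : l ≠ l') (p : Φ.Pt l) (p' : Φ.Pt l') :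
    Φ.d (some ⟨l, p⟩) (some ⟨l', p'⟩) = Φ.D l + Φ.D l' := by
  refine le_antisymm ?_ ?_
  · refine (Φ.d_triangle _ none _).trans ?_
    rw [d_some_none, d_none_some]
  · have h := Φ.le_d (Φ.glue_mem (fun k _ => if k = l then Φ.D k else -Φ.D k) fun k => by
      by_cases hk : k = l
      · simp only [if_pos hk]; exact Φ.const_mem k
      · simp only [if_neg hk]; exact Φ.nconst_mem k) (some ⟨l, p⟩) (some ⟨l', p'⟩)
    have e : Φ.glue (fun k _ => if k = l then Φ.D k else -Φ.D k) (some ⟨l, p⟩)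
        - Φ.glue (fun k _ => if k = l then Φ.D k else -Φ.D k) (some ⟨l', p'⟩)
        = Φ.D l + Φ.D l' := by
      simp only [glue_some, if_true]
      rw [if_neg (Ne.symm ‹l ≠ l'›)]
      ring
    rw [e, abs_of_pos (add_pos (Φ.D_pos l) (Φ.D_pos l'))] at h
    exact h

/-- points in the same part -/
lemma d_same_le {l : ℕ} {p p' : Φ.Pt l} {K : ℝ} (h : ∀ g ∈ Φ.Test l, |g p - g p'| ≤ K) :
    Φ.d (some ⟨l, p⟩) (some ⟨l, p'⟩) ≤ K :=
  Φ.d_le fun _ hg => h _ (hg.2 l)

open Classical in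
/-- extension of a function on one part by zero -/
noncomputable def extz (l : ℕ) (g : Φ.Pt l → ℝ) : Φ.M → ℝ :=
  Φ.glue fun k => if h : k = l then fun p => g (h ▸ p) else fun _ => 0


lemma extz_some (l : ℕ) (g : Φ.Pt l → ℝ) (p : Φ.Pt l) : Φ.extz l g (some ⟨l, p⟩) = g p := by
  simp [extz]

lemma extz_ne {l k : ℕ} (h : k ≠ l) (g : Φ.Pt l → ℝ) (p : Φ.Pt k) :
    Φ.extz l g (some ⟨k, p⟩) = 0 := by
  simp [extz, h]

lemma extz_mem {l : ℕ} {g : Φ.Pt l → ℝ} (hg : g ∈ Φ.Test l) : Φ.extz l g ∈ Φ.GTest := by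
  refine Φ.glue_mem _ fun k => ?_
  by_cases h : k = l
  · subst h; simpa using hg
  · simp only [h, dif_neg, not_false_eq_true]; exact Φ.zero_mem k

lemma le_d_same {l : ℕ} {g : Φ.Pt l → ℝ} (hg : g ∈ Φ.Test l) (p p' : Φ.Pt l) :
    |g p - g p'| ≤ Φ.d (some ⟨l, p⟩) (some ⟨l, p'⟩) := by
  have h := Φ.le_d (Φ.extz_mem hg) (some ⟨l, p⟩) (some ⟨l, p'⟩)
  rwa [extz_some, extz_some] at h

lemma one_le_d {x y : Φ.M} (hxy : x ≠ y) : 1 ≤ Φ.d x y := by
  classical
  rcases x with _ | ⟨l, p⟩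
  · rcases y with _ | ⟨l', p'⟩
    · exact absurd rfl hxy
    · rw [d_none_some]; exact Φ.one_le_D l'
  · rcases y with _ | ⟨l', p'⟩
    · rw [d_some_none]; exact Φ.one_le_D l
    · by_cases hl : l = l'
      · subst hl
        have hp : p' ≠ p := by
          rintro rfl; exact hxy rfl
        have hg : (fun z : Φ.Pt l => if z = p then (1 / 2 : ℝ) else -(1 / 2)) ∈ Φ.Test l := by
          refine Φ.small_mem l _ fun z => ?_
          split_ifs <;> norm_num
        have h := Φ.le_d_same hg p p'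
        rw [if_pos rfl, if_neg hp] at h
        norm_num at h
        exact h
      · rw [d_of_ne Φ hl]
        linarith [Φ.one_le_D l, Φ.one_le_D l']

/-- the metric space -/
@[reducible] noncomputable def met : MetricSpace Φ.M where
  dist := Φ.d
  dist_self := Φ.d_self
  dist_comm := Φ.d_comm
  dist_triangle := Φ.d_triangle
  eq_of_dist_eq_zero := by
    intro x y h
    by_contra hxy
    have := Φ.one_le_d hxy
    change Φ.d x y = 0 at h
    linarith

/-- the pointed metric space -/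
noncomputable def P : PointedMetric := ⟨Φ.M, Φ.met, none⟩

theorem dist_eq (x y : Φ.M) : (letI := Φ.met; dist x y) = Φ.d x y := rfl

theorem isCSUN : Φ.P.IsCountableSeparatedUnboundedNonproper := by
  let inst : MetricSpace Φ.M := Φ.met
  have hsep : ∀ x y : Φ.M, x ≠ y → 1 ≤ dist x y := fun x y hxy => Φ.one_le_d hxy
  refine (⟨?_, hsep, ?_, ?_⟩ : Countable Φ.M ∧ (∀ x y : Φ.M, x ≠ y → 1 ≤ dist x y) ∧
    ¬ Bornology.IsBounded (Set.univ : Set Φ.M) ∧ ¬ ProperSpace Φ.M)
  · have := Φ.cnt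
    infer_instance
  · intro hb
    obtain ⟨C, hC⟩ := Metric.isBounded_iff.1 hb
    obtain ⟨l, hl⟩ := Φ.D_unbdd (C + 1)
    obtain ⟨p⟩ := Φ.ne l
    have h : dist (some ⟨l, p⟩ : Φ.M) (none : Φ.M) ≤ C :=
      hC (x := (some ⟨l, p⟩ : Φ.M)) (Set.mem_univ _) (y := (none : Φ.M)) (Set.mem_univ _)
    have h2 : dist (some ⟨l, p⟩ : Φ.M) (none : Φ.M) = Φ.D l := Φ.d_some_none l p
    linarith
  · intro hp
    obtain ⟨l, hl⟩ := Φ.inf
    have hc : IsCompact (Metric.closedBall (none : Φ.M) (Φ.D l)) := isCompact_closedBall _ _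
    have hdisc : DiscreteTopology Φ.M :=
      DiscreteTopology.of_forall_le_dist one_pos (fun x y hxy => hsep x y hxy)
    have hfin : (Metric.closedBall (none : Φ.M) (Φ.D l)).Finite := hc.finite_of_discrete
    have hinj : Function.Injective (fun p : Φ.Pt l => (some ⟨l, p⟩ : Φ.M)) := by
      intro p p' h
      simpa using h
    have hsub : Set.range (fun p : Φ.Pt l => (some ⟨l, p⟩ : Φ.M)) ⊆
        Metric.closedBall (none : Φ.M) (Φ.D l) := by
      rintro _ ⟨p, rfl⟩
      exact le_of_eq (Φ.d_some_none l p)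
    exact (Set.infinite_range_of_injective hinj) (hfin.subset hsub)

end Fam

end Crest.Agent.R115
end

-- ▼ part R115/Free
section

set_option autoImplicit false

open Crest.AnalysisR

namespace Crest.Agent.R115

noncomputable section

/-- Make the bundled metric available to instance search. -/
scoped instance instMetric (P : PointedMetric) : MetricSpace P.M := P.metric

variable (P : PointedMetric)

/-- Dirac molecule. -/
def mdelta (x : P.M) : P.Mol := Finsupp.single x (1 : ℝ)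

/-- Dirac element of the free space. -/
def delta (x : P.M) : P.FreeSpace := (mdelta P x : P.Mol)

lemma norm_mol (a : P.Mol) : ‖a‖ = P.freeNorm a := rfl

lemma pairing_mdelta (x : P.M) (f : P.M → ℝ) : P.pairing (mdelta P x) f = f x := by
  unfold PointedMetric.pairing PointedMetric.coeffs mdelta
  rw [Finsupp.sum_single_index] <;> simp

/-- The pairing with a function, as a linear map. -/
def pairingL (f : P.M → ℝ) : P.Mol →ₗ[ℝ] ℝ where
  toFun a := P.pairing a f
  map_add' a b := P.pairing_add a b f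
  map_smul' c a := P.pairing_smul c a f

lemma abs_pairing_le_norm (a : P.Mol) (f : P.Lip1) : |P.pairing a f.1| ≤ ‖a‖ := by
  rw [norm_mol]
  exact le_ciSup (P.freeNorm_bddAbove a) f

/-- Linear extension of a vector valued function to molecules. -/
def lsum {X : Type*} [AddCommGroup X] [Module ℝ X] (g : P.M → X) : P.Mol →ₗ[ℝ] X :=
  (Finsupp.linearCombination ℝ g : (P.M →₀ ℝ) →ₗ[ℝ] X)

lemma lsum_mdelta {X : Type*} [AddCommGroup X] [Module ℝ X] (g : P.M → X) (x : P.M) :
    lsum P g (mdelta P x) = g x := by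
  change Finsupp.linearCombination ℝ g (Finsupp.single x (1 : ℝ)) = g x
  simp

/-- molecules are spanned by the Dirac molecules -/
lemma mol_induction {p : P.Mol → Prop} (h0 : p 0) (hadd : ∀ a b, p a → p b → p (a + b))
    (hd : ∀ (c : ℝ) x, p (c • mdelta P x)) (a : P.Mol) : p a := by
  refine Finsupp.induction_linear (motive := fun a : P.M →₀ ℝ => p a) a h0 hadd ?_
  intro x c
  have := hd c x
  unfold mdelta at this
  have h2 : (c • (Finsupp.single x (1:ℝ)) : P.M →₀ ℝ) = Finsupp.single x c := by simp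
  have h3 : (Finsupp.single x c : P.M →₀ ℝ) = (c • (Finsupp.single x (1:ℝ)) : P.M →₀ ℝ) := h2.symm
  rw [h3]
  exact this

lemma lsum_functional {X : Type*} [NormedAddCommGroup X] [NormedSpace ℝ X] (g : P.M → X)
    (φ : X →L[ℝ] ℝ) (a : P.Mol) : φ (lsum P g a) = P.pairing a (fun x => φ (g x)) := by
  have : (φ.toLinearMap ∘ₗ lsum P g) = pairingL P (fun x => φ (g x)) := by
    ext a
    refine mol_induction P (p := fun a => (φ.toLinearMap ∘ₗ lsum P g) a
      = pairingL P (fun x => φ (g x)) a) ?_ ?_ ?_ a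
    · simp
    · intro a b ha hb
      rw [map_add, map_add, ha, hb]
    · intro c x
      rw [map_smul, map_smul]
      congr 1
      have h1 : (φ.toLinearMap ∘ₗ lsum P g) (mdelta P x) = φ (g x) := by
        simp only [LinearMap.comp_apply, lsum_mdelta]
        rfl
      rw [h1]
      exact (pairing_mdelta P x (fun x => φ (g x))).symm
  exact congrArg (fun L => L a) this

/-- Bound for the linear extension of a Lipschitz map vanishing at the base point. -/
lemma norm_lsum_le {X : Type*} [NormedAddCommGroup X] [NormedSpace ℝ X] (g : P.M → X) (C : ℝ)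
    (hC : 0 ≤ C) (hg : ∀ x y, ‖g x - g y‖ ≤ C * dist x y) (h0 : g P.base = 0) (a : P.Mol) :
    ‖lsum P g a‖ ≤ C * ‖a‖ := by
  obtain ⟨φ, hφ, hφ2⟩ := exists_dual_vector'' ℝ (lsum P g a)
  have h1 : ‖lsum P g a‖ = P.pairing a (fun x => φ (g x)) := by
    rw [← lsum_functional]
    rw [hφ2]; simp
  rcases hC.eq_or_lt with h | hpos
  · subst h
    have hg0 : ∀ x, g x = 0 := by
      intro x
      have := hg x P.base
      rw [zero_mul, h0, sub_zero] at this
      exact norm_le_zero_iff.mp this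
    have : (fun x => φ (g x)) = fun _ => 0 := by
      funext x; rw [hg0]; simp
    rw [h1, this]
    simp [PointedMetric.pairing, Finsupp.sum]
  · have hL : LipschitzWith 1 (fun x => C⁻¹ * φ (g x)) := by
      refine LipschitzWith.of_dist_le_mul fun x y => ?_
      rw [Real.dist_eq, NNReal.coe_one, one_mul, ← mul_sub, ← map_sub, abs_mul,
        abs_of_nonneg (inv_nonneg.mpr hC)]
      have h2 : |φ (g x - g y)| ≤ ‖g x - g y‖ := by
        have := φ.le_of_opNorm_le hφ (g x - g y)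
        rwa [one_mul, Real.norm_eq_abs] at this
      calc C⁻¹ * |φ (g x - g y)| ≤ C⁻¹ * (C * dist x y) :=
            mul_le_mul_of_nonneg_left (h2.trans (hg x y)) (inv_nonneg.mpr hC)
        _ = dist x y := by field_simp
    have h0' : (fun x => C⁻¹ * φ (g x)) P.base = 0 := by simp [h0]
    have h3 := abs_pairing_le_norm P a ⟨_, hL, h0'⟩
    have h4 : P.pairing a (fun x => C⁻¹ * φ (g x)) = C⁻¹ * P.pairing a (fun x => φ (g x)) := by
      unfold PointedMetric.pairing
      rw [Finsupp.mul_sum]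
      refine Finsupp.sum_congr fun x _ => by ring
    simp only at h3
    rw [h4, ← h1, abs_mul, abs_of_nonneg (inv_nonneg.mpr hC), abs_of_nonneg (norm_nonneg _)] at h3
    calc ‖lsum P g a‖ = C * (C⁻¹ * ‖lsum P g a‖) := by field_simp
      _ ≤ C * ‖a‖ := mul_le_mul_of_nonneg_left h3 hC

/-- The embedding of molecules in the free space, as a linear map. -/
def emb : P.Mol →ₗ[ℝ] P.FreeSpace :=
  (UniformSpace.Completion.toComplL (𝕜 := ℝ) (E := P.Mol)).toLinearMap


lemma emb_dense : DenseRange (emb P) := UniformSpace.Completion.denseRange_coe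

lemma norm_emb (a : P.Mol) : ‖emb P a‖ = ‖a‖ := UniformSpace.Completion.norm_coe a

lemma emb_mdelta (x : P.M) : emb P (mdelta P x) = delta P x := rfl

lemma lsum_delta (a : P.Mol) : lsum P (delta P) a = emb P a := by
  refine mol_induction P (p := fun a => lsum P (delta P) a = emb P a) ?_ ?_ ?_ a
  · simp
  · intro a b ha hb
    rw [map_add, map_add, ha, hb]
  · intro c x
    rw [map_smul, map_smul, lsum_mdelta, emb_mdelta]

section ext

variable {X : Type*} [NormedAddCommGroup X] [NormedSpace ℝ X] [CompleteSpace X]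

/-- Universal property of the free space: the linear extension of a Lipschitz map. -/
def ext (g : P.M → X) : P.FreeSpace →L[ℝ] X := (lsum P g).extendOfNorm (emb P)

variable (g : P.M → X) (C : ℝ) (hC : 0 ≤ C) (hg : ∀ x y, ‖g x - g y‖ ≤ C * dist x y)
  (h0 : g P.base = 0)

include hC hg h0

lemma ext_emb (a : P.Mol) : ext P g (emb P a) = lsum P g a := by
  refine LinearMap.extendOfNorm_eq (emb_dense P) ⟨C, fun a => ?_⟩ a
  rw [norm_emb]
  exact norm_lsum_le P g C hC hg h0 a

lemma ext_delta (x : P.M) : ext P g (delta P x) = g x := by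
  rw [← emb_mdelta, ext_emb P g C hC hg h0, lsum_mdelta]

lemma norm_ext_le : ‖ext P g‖ ≤ C := by
  refine LinearMap.opNorm_extendOfNorm_le (emb_dense P) hC (fun a => ?_)
  rw [norm_emb]
  exact norm_lsum_le P g C hC hg h0 a

end ext

/-- Two continuous linear maps on the free space agreeing at the Dirac elements agree. -/
lemma clm_ext {X : Type*} [NormedAddCommGroup X] [NormedSpace ℝ X]
    {S T : P.FreeSpace →L[ℝ] X} (h : ∀ x, S (delta P x) = T (delta P x)) : S = T := by
  have h2 : ∀ a : P.Mol, S (emb P a) = T (emb P a) := by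
    intro a
    refine mol_induction P (p := fun a => S (emb P a) = T (emb P a)) ?_ ?_ ?_ a
    · simp
    · intro a b ha hb
      rw [map_add, map_add, map_add, ha, hb]
    · intro c x
      rw [map_smul, map_smul, map_smul, emb_mdelta, h]
  ext y
  have := (emb_dense P).equalizer S.continuous T.continuous (funext h2)
  exact congrFun this y


lemma dist_delta_le (x y : P.M) : ‖delta P x - delta P y‖ ≤ dist x y := by
  have h : delta P x - delta P y = emb P (mdelta P x - mdelta P y) := by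
    rw [map_sub]; rfl
  rw [h, norm_emb, norm_mol]
  refine ciSup_le fun f => ?_
  have h2 : P.pairing (mdelta P x - mdelta P y) f.1 = f.1 x - f.1 y := by
    have := map_sub (pairingL P f.1) (mdelta P x) (mdelta P y)
    calc P.pairing (mdelta P x - mdelta P y) f.1
        = pairingL P f.1 (mdelta P x - mdelta P y) := rfl
      _ = pairingL P f.1 (mdelta P x) - pairingL P f.1 (mdelta P y) := this
      _ = _ := by
        change P.pairing (mdelta P x) f.1 - P.pairing (mdelta P y) f.1 = _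
        rw [pairing_mdelta, pairing_mdelta]
  rw [h2]
  have := f.2.1.dist_le_mul x y
  rwa [Real.dist_eq, NNReal.coe_one, one_mul] at this

lemma delta_base : delta P P.base = 0 := by
  have h : delta P P.base = emb P (mdelta P P.base) := rfl
  have h2 : ‖delta P P.base‖ ≤ 0 := by
    rw [h, norm_emb, norm_mol]
    refine ciSup_le fun f => ?_
    rw [pairing_mdelta, f.2.2, abs_zero]
  exact norm_le_zero_iff.mp h2

lemma norm_delta_le (x : P.M) : ‖delta P x‖ ≤ dist x P.base := by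
  have := dist_delta_le P x P.base
  rwa [delta_base, sub_zero] at this

/-- A function `M → M` fixing the base point and `C`-Lipschitz induces an operator. -/
def lmap {P Q : PointedMetric} (r : P.M → Q.M) : P.FreeSpace →L[ℝ] Q.FreeSpace :=
  ext P (fun x => delta Q (r x))

section lmap

variable {P}
variable {Q : PointedMetric} (r : P.M → Q.M) (C : ℝ) (hC : 0 ≤ C)
  (hr : ∀ x y, dist (r x) (r y) ≤ C * dist x y) (h0 : r P.base = Q.base)

include hC hr h0

lemma lmap_delta (x : P.M) : lmap r (delta P x) = delta Q (r x) := by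
  refine ext_delta P _ C hC (fun x y => (dist_delta_le Q _ _).trans (hr x y)) ?_ x
  simp only [h0, delta_base]

lemma norm_lmap_le : ‖lmap r‖ ≤ C := by
  refine norm_ext_le P _ C hC (fun x y => (dist_delta_le Q _ _).trans (hr x y)) ?_
  simp only [h0, delta_base]

end lmap

end

end Crest.Agent.R115
end

-- ▼ part R115/AP
section

set_option autoImplicit false

open Crest.AnalysisR

namespace Crest.Agent.R115

noncomputable section

variable (P : PointedMetric)

/-- Coordinate cut-off: `δ x` on `F`, zero elsewhere. -/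
def cutFun (F : Finset P.M) [DecidablePred (· ∈ F)] : P.M → P.FreeSpace :=
  fun x => if x ∈ F then delta P x else 0

open Classical in
/-- The coordinate projection operator. -/
def cut (F : Finset P.M) : P.FreeSpace →L[ℝ] P.FreeSpace := ext P (cutFun P F)

open Classical in
lemma cutFun_lip (F : Finset P.M) (D : ℝ) (hD : 1 ≤ D)
    (hsep : ∀ x y : P.M, x ≠ y → 1 ≤ dist x y) (hF : ∀ x ∈ F, dist x P.base ≤ D) (x y : P.M) :
    ‖cutFun P F x - cutFun P F y‖ ≤ D * dist x y := by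
  unfold cutFun
  have h1 : dist x y ≤ D * dist x y := by nlinarith [dist_nonneg (x := x) (y := y)]
  rcases eq_or_ne x y with rfl | hxy
  · simp
  · have hd := hsep x y hxy
    split_ifs with hx hy hy
    · exact (dist_delta_le P x y).trans h1
    · rw [sub_zero]
      refine (norm_delta_le P x).trans ((hF x hx).trans ?_)
      nlinarith
    · rw [zero_sub, norm_neg]
      refine (norm_delta_le P y).trans ((hF y hy).trans ?_)
      nlinarith
    · simp only [sub_zero, norm_zero]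
      positivity

open Classical in
lemma cutFun_base (F : Finset P.M) : cutFun P F P.base = 0 := by
  unfold cutFun
  split_ifs
  · exact delta_base P
  · rfl

open Classical in
lemma cut_finite (F : Finset P.M) (D : ℝ) (hD : 1 ≤ D)
    (hsep : ∀ x y : P.M, x ≠ y → 1 ≤ dist x y) (hF : ∀ x ∈ F, dist x P.base ≤ D) :
    FiniteDimensional ℝ (LinearMap.range (cut P F).toLinearMap) := by
  set V : Submodule ℝ P.FreeSpace := Submodule.span ℝ ((delta P) '' (F : Set P.M)) with hV
  have hVf : FiniteDimensional ℝ V :=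
    FiniteDimensional.span_of_finite ℝ (F.finite_toSet.image _)
  have hVc : IsClosed (V : Set P.FreeSpace) := V.closed_of_finiteDimensional
  have hle : LinearMap.range (cut P F).toLinearMap ≤ V := by
    rintro _ ⟨y, rfl⟩
    change (cut P F) y ∈ (V : Set P.FreeSpace)
    have hcl : IsClosed {y | (cut P F) y ∈ (V : Set P.FreeSpace)} :=
      hVc.preimage (cut P F).continuous
    refine (emb_dense P).induction_on (p := fun y => (cut P F) y ∈ (V : Set P.FreeSpace)) y hcl ?_
    intro a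
    rw [cut, ext_emb P (cutFun P F) D (by linarith) (cutFun_lip P F D hD hsep hF)
      (cutFun_base P F)]
    refine mol_induction P (p := fun a => lsum P (cutFun P F) a ∈ (V : Set P.FreeSpace))
      ?_ ?_ ?_ a
    · simp
    · intro a b ha hb
      rw [map_add]; exact V.add_mem ha hb
    · intro c x
      rw [map_smul, lsum_mdelta]
      refine V.smul_mem c ?_
      unfold cutFun
      split_ifs with hx
      · exact Submodule.subset_span ⟨x, hx, rfl⟩
      · exact V.zero_mem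
  exact Submodule.finiteDimensional_of_le hle


/-- The approximation property for separated spaces which are exhausted by bounded sets with
uniformly Lipschitz collapse of the complement to the base point. -/
theorem hasAP_of_exhaustion (hsep : ∀ x y : P.M, x ≠ y → 1 ≤ dist x y)
    (A : ℕ → Set P.M) (hmono : Monotone A) (hcov : ∀ x, ∃ n, x ∈ A n)
    (D : ℕ → ℝ) (hD : ∀ n, ∀ x ∈ A n, dist x P.base ≤ D n)
    (C : ℝ) (hC : 1 ≤ C) (hA : ∀ n, ∀ x ∈ A n, ∀ y, y ∉ A n → dist x P.base ≤ C * dist x y) :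
    HasAP P.FreeSpace := by
  classical
  intro K hK ε hε
  -- collapse maps
  set r : ℕ → P.M → P.M := fun n x => if x ∈ A n then x else P.base with hr
  have hr0 : ∀ n, r n P.base = P.base := by intro n; simp [hr]
  have hrL : ∀ n x y, dist (r n x) (r n y) ≤ C * dist x y := by
    intro n x y
    have h1 : dist x y ≤ C * dist x y := by nlinarith [dist_nonneg (x := x) (y := y)]
    simp only [hr]
    split_ifs with hx hy hy
    · exact h1
    · exact hA n x hx y hy
    · rw [dist_comm P.base y, dist_comm x y]; exact hA n y hy x hx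
    · rw [dist_self]; positivity
  have hC0 : 0 ≤ C := by linarith
  -- step 1 : finite net of K made of molecules
  set η : ℝ := ε / (4 * (C + 1)) with hη
  have hηpos : 0 < η := by positivity
  have net : ∀ (K : Set P.FreeSpace), IsCompact K → ∀ η : ℝ, 0 < η →
      ∃ S : Finset P.Mol, ∀ x ∈ K, ∃ a ∈ S, ‖x - emb P a‖ < η := by
    intro K hK η hη
    obtain ⟨t, ht⟩ := hK.elim_finite_subcover
      (fun a : P.Mol => Metric.ball (emb P a) η) (fun a => Metric.isOpen_ball) (by
        intro x _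
        obtain ⟨a, ha⟩ := Metric.denseRange_iff.mp (emb_dense P) x η hη
        exact Set.mem_iUnion.mpr ⟨a, by simpa [Metric.mem_ball] using ha⟩)
    refine ⟨t, fun x hx => ?_⟩
    obtain ⟨a, ha, hxa⟩ := Set.mem_iUnion₂.mp (ht hx)
    refine ⟨a, ha, ?_⟩
    rwa [Metric.mem_ball, dist_eq_norm] at hxa
  obtain ⟨S, hS⟩ := net K hK η hηpos
  -- index containing all supports
  obtain ⟨N, hN⟩ : ∃ N, ∀ a ∈ S, ∀ x, (P.coeffs a) x ≠ 0 → x ∈ A N := by
    have h1 : ∀ G : Finset P.M, ∃ N, ∀ x ∈ G, x ∈ A N := by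
      intro G
      choose n hn using hcov
      refine ⟨G.sup n, fun x hx => hmono (Finset.le_sup hx) (hn x)⟩
    obtain ⟨N, hN⟩ := h1 (S.biUnion fun a => (P.coeffs a).support)
    refine ⟨N, fun a ha x hx => hN x ?_⟩
    exact Finset.mem_biUnion.mpr ⟨a, ha, Finsupp.mem_support_iff.mpr hx⟩
  -- the operator P_N
  set R : P.FreeSpace →L[ℝ] P.FreeSpace := lmap (r N) with hR
  have hRn : ‖R‖ ≤ C := norm_lmap_le (r N) C hC0 (hrL N) (hr0 N)
  have hRd : ∀ x, R (delta P x) = delta P (r N x) :=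
    lmap_delta (r N) C hC0 (hrL N) (hr0 N)
  have hRfix : ∀ a : P.Mol, (∀ x, (P.coeffs a) x ≠ 0 → x ∈ A N) → R (emb P a) = emb P a := by
    intro a ha
    have h1 : R (emb P a) = lsum P (fun x => delta P (r N x)) a := by
      rw [hR]
      exact ext_emb P _ C hC0
        (fun x y => (dist_delta_le P _ _).trans (hrL N x y)) (by simp [hr0, delta_base]) a
    rw [h1, ← lsum_delta]
    change Finsupp.linearCombination ℝ (fun x => delta P (r N x)) (P.coeffs a)
      = Finsupp.linearCombination ℝ (delta P) (P.coeffs a)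
    rw [Finsupp.linearCombination_apply, Finsupp.linearCombination_apply]
    refine Finsupp.sum_congr fun x hx => ?_
    have := ha x (Finsupp.mem_support_iff.mp hx)
    simp [hr, this]
  have hstep1 : ∀ x ∈ K, ‖R x - x‖ ≤ ε / 4 := by
    intro x hx
    obtain ⟨a, ha, hxa⟩ := hS x hx
    have h1 : R x - x = R (x - emb P a) - (x - emb P a) := by
      rw [map_sub, hRfix a (hN a ha)]; abel
    rw [h1]
    have h2 : ‖R (x - emb P a)‖ ≤ C * η :=
      (R.le_of_opNorm_le hRn _).trans (by gcongr)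
    calc ‖R (x - emb P a) - (x - emb P a)‖ ≤ ‖R (x - emb P a)‖ + ‖x - emb P a‖ := norm_sub_le _ _
      _ ≤ C * η + η := add_le_add h2 hxa.le
      _ = (C + 1) * η := by ring
      _ = ε / 4 := by rw [hη]; field_simp
  -- step 2
  set DN : ℝ := max 1 (D N) with hDN
  have hDN1 : 1 ≤ DN := le_max_left _ _
  set η' : ℝ := ε / (4 * (DN + 1) * C) with hη'
  have hη'pos : 0 < η' := by positivity
  obtain ⟨S', hS'⟩ := net K hK η' hη'pos
  -- push the approximants into A N
  set F : Finset P.M := (S'.biUnion fun a => (P.coeffs a).support).filter (fun x => x ∈ A N)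
    with hF
  have hFD : ∀ x ∈ F, dist x P.base ≤ DN := by
    intro x hx
    exact (hD N x (Finset.mem_filter.mp hx).2).trans (le_max_right _ _)
  refine ⟨cut P F, cut_finite P F DN hDN1 hsep hFD, fun x hx => ?_⟩
  have hcn : ‖cut P F‖ ≤ DN := norm_ext_le P _ DN (by linarith)
    (cutFun_lip P F DN hDN1 hsep hFD) (cutFun_base P F)
  have hcd : ∀ x, cut P F (delta P x) = cutFun P F x :=
    ext_delta P _ DN (by linarith) (cutFun_lip P F DN hDN1 hsep hFD) (cutFun_base P F)
  have hcR : ∀ y, cut P F (R y) = cut P F y := by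
    have : (cut P F).comp R = cut P F := by
      refine clm_ext P fun x => ?_
      rw [ContinuousLinearMap.comp_apply, hRd, hcd, hcd]
      by_cases hxA : x ∈ A N
      · simp [hr, hxA]
      · have hxF : x ∉ F := fun h => hxA (Finset.mem_filter.mp h).2
        have : r N x = P.base := by simp [hr, hxA]
        rw [this, cutFun_base]
        simp [cutFun, hxF]
    intro y
    exact congrArg (fun L => L y) this
  obtain ⟨a, ha, hxa⟩ := hS' x hx
  -- `R a` is fixed by `cut`
  have hfix : cut P F (R (emb P a)) = R (emb P a) := by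
    have h1 : R (emb P a) = lsum P (fun x => delta P (r N x)) a := by
      rw [hR]
      exact ext_emb P _ C hC0
        (fun x y => (dist_delta_le P _ _).trans (hrL N x y)) (by simp [hr0, delta_base]) a
    have h2 : cut P F (emb P a) = lsum P (cutFun P F) a :=
      ext_emb P _ DN (by linarith) (cutFun_lip P F DN hDN1 hsep hFD) (cutFun_base P F) a
    rw [hcR, h2, h1]
    change Finsupp.linearCombination ℝ (cutFun P F) (P.coeffs a)
      = Finsupp.linearCombination ℝ (fun x => delta P (r N x)) (P.coeffs a)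
    rw [Finsupp.linearCombination_apply, Finsupp.linearCombination_apply]
    refine Finsupp.sum_congr fun z hz => ?_
    congr 1
    by_cases hzA : z ∈ A N
    · have hzF : z ∈ F := Finset.mem_filter.mpr ⟨Finset.mem_biUnion.mpr ⟨a, ha, hz⟩, hzA⟩
      simp [cutFun, hr, hzF, hzA]
    · have hzF : z ∉ F := fun h => hzA (Finset.mem_filter.mp h).2
      simp [cutFun, hr, hzF, hzA, delta_base]
  have h3 : cut P F x - x = cut P F (R (x - emb P a)) - R (x - emb P a) + (R x - x) := by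
    rw [map_sub R, map_sub (cut P F), hfix, hcR]; abel
  rw [h3]
  have h4 : ‖R (x - emb P a)‖ ≤ C * η' := (R.le_of_opNorm_le hRn _).trans (by gcongr)
  have h5 : ‖cut P F (R (x - emb P a))‖ ≤ DN * (C * η') :=
    ((cut P F).le_of_opNorm_le hcn _).trans (by gcongr)
  have h6 : DN * (C * η') + C * η' = ε / 4 := by
    rw [hη']; field_simp
  calc ‖cut P F (R (x - emb P a)) - R (x - emb P a) + (R x - x)‖
      ≤ ‖cut P F (R (x - emb P a)) - R (x - emb P a)‖ + ‖R x - x‖ := norm_add_le _ _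
    _ ≤ (‖cut P F (R (x - emb P a))‖ + ‖R (x - emb P a)‖) + ‖R x - x‖ := by
        gcongr; exact norm_sub_le _ _
    _ ≤ (DN * (C * η') + C * η') + ε / 4 := add_le_add (add_le_add h5 h4) (hstep1 x hx)
    _ ≤ ε := by rw [h6]; linarith

end

end Crest.Agent.R115
end

-- ▼ part R115/FamAP
section

/-!
Task T7: the free space of the glued space has the approximation property.
-/

set_option autoImplicit false

namespace Crest.Agent.R115

open Crest.AnalysisR

namespace Fam

variable (Φ : Fam)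

theorem hasAP : HasAP Φ.P.FreeSpace := by
  classical
  have hd : ∀ x y : Φ.P.M, dist x y = Φ.d x y := Φ.dist_eq
  refine hasAP_of_exhaustion Φ.P (fun x y hxy => by rw [hd]; exact Φ.one_le_d hxy)
    (fun n => {x : Φ.M | ∀ l p, x = some ⟨l, p⟩ → l ≤ n}) ?_ ?_
    (fun n => ∑ l ∈ Finset.range (n + 1), Φ.D l) ?_ 1 le_rfl ?_
  · intro a b hab x hx l p hlp
    exact (hx l p hlp).trans hab
  · intro x
    rcases x with _ | ⟨l, p⟩
    · exact ⟨0, fun l p h => by cases h⟩
    · refine ⟨l, fun l' p' h => ?_⟩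
      have := Option.some.inj h
      exact (Sigma.mk.inj this).1 ▸ le_rfl
  · intro n x hx
    rw [hd]
    refine (Φ.d_eq_size x).le.trans ?_
    have hD : ∀ l, 0 ≤ Φ.D l := fun l => (Φ.D_pos l).le
    rcases x with _ | ⟨l, p⟩
    · exact Finset.sum_nonneg fun l _ => hD l
    · exact Finset.single_le_sum (f := Φ.D) (fun l _ => hD l)
        (Finset.mem_range.mpr (Nat.lt_succ_of_le (hx l p rfl)))
  · intro n x hx y hy
    rw [hd, hd, one_mul]
    refine (Φ.d_eq_size x).le.trans ?_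
    rcases x with _ | ⟨l, p⟩
    · exact Φ.d_nonneg _ _
    · change Φ.D l ≤ _
      rcases y with _ | ⟨l', p'⟩
      · exact (Φ.d_some_none l p).ge
      · have hne : l ≠ l' := by
          rintro rfl
          refine hy fun l'' p'' h => ?_
          have := Option.some.inj h
          rw [← (Sigma.mk.inj this).1]
          exact hx l p rfl
        rw [Φ.d_of_ne hne]
        linarith [Φ.D_pos l']

end Fam

end Crest.Agent.R115
end

-- ▼ part R115/Kernel
section

/-!
What the bounded approximation property of the free space gives for a bounded set of points: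
finitely supported kernels. (Task T8, generic part.)
-/

set_option autoImplicit false

open Crest.AnalysisR

namespace Crest.Agent.R115

noncomputable section

variable (P : PointedMetric)

/-- the functional of a `1`-Lipschitz function on molecules -/
lemma ext_emb_real (f : P.M → ℝ) (hf : ∀ x y, |f x - f y| ≤ dist x y) (h0 : f P.base = 0)
    (a : P.Mol) : ext P f (emb P a) = ∑ x ∈ (P.coeffs a).support, (P.coeffs a) x * f x := by
  rw [ext_emb P f 1 zero_le_one (fun x y => by rw [one_mul, Real.norm_eq_abs]; exact hf x y) h0]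
  change Finsupp.linearCombination ℝ f (P.coeffs a) = _
  rw [Finsupp.linearCombination_apply, Finsupp.sum]
  simp [smul_eq_mul]

lemma ext_real_norm_le (f : P.M → ℝ) (hf : ∀ x y, |f x - f y| ≤ dist x y) (h0 : f P.base = 0)
    (z : P.FreeSpace) : |ext P f z| ≤ ‖z‖ := by
  have h := norm_ext_le P f 1 zero_le_one
    (fun x y => by rw [one_mul, Real.norm_eq_abs]; exact hf x y) h0
  have := (ext P f).le_of_opNorm_le h z
  rwa [one_mul, Real.norm_eq_abs] at this

lemma ext_real_delta (f : P.M → ℝ) (hf : ∀ x y, |f x - f y| ≤ dist x y) (h0 : f P.base = 0)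
    (x : P.M) : ext P f (delta P x) = f x :=
  ext_delta P f 1 zero_le_one (fun x y => by rw [one_mul, Real.norm_eq_abs]; exact hf x y) h0 x

/-- compact subsets of the free space have finite nets made of molecules -/
lemma net_mol (K : Set P.FreeSpace) (hK : IsCompact K) (η : ℝ) (hη : 0 < η) :
    ∃ S : Finset P.Mol, ∀ x ∈ K, ∃ a ∈ S, ‖x - emb P a‖ < η := by
  obtain ⟨t, ht⟩ := hK.elim_finite_subcover
    (fun a : P.Mol => Metric.ball (emb P a) η) (fun a => Metric.isOpen_ball) (by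
      intro x _
      obtain ⟨a, ha⟩ := Metric.denseRange_iff.mp (emb_dense P) x η hη
      exact Set.mem_iUnion.mpr ⟨a, by simpa [Metric.mem_ball] using ha⟩)
  refine ⟨t, fun x hx => ?_⟩
  obtain ⟨a, ha, hxa⟩ := Set.mem_iUnion₂.mp (ht hx)
  refine ⟨a, ha, ?_⟩
  rwa [Metric.mem_ball, dist_eq_norm] at hxa

/-- Finitely supported kernels from the bounded approximation property. -/
theorem bap_kernel (h : HasBAP P.FreeSpace) : ∃ lam : ℝ, 0 ≤ lam ∧
    ∀ (B : Set P.M) (R : ℝ), (∀ x ∈ B, dist x P.base ≤ R) → ∀ (S : Finset P.M) (ε : ℝ), 0 < ε →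
    ∃ (N : Finset P.M) (c : P.M → P.M → ℝ), (∀ u q, q ∉ N → c u q = 0) ∧
      (∀ f : P.M → ℝ, (∀ x y, |f x - f y| ≤ dist x y) → f P.base = 0 →
        ∀ u ∈ B, ∀ u' ∈ B, |∑ q ∈ N, (c u q - c u' q) * f q| ≤ lam * dist u u' + ε) ∧
      (∀ f : P.M → ℝ, (∀ x y, |f x - f y| ≤ dist x y) → f P.base = 0 →
        ∀ t ∈ S, t ∈ B → |∑ q ∈ N, c t q * f q - f t| ≤ ε) := by
  classical
  obtain ⟨lam, hlam⟩ := h
  refine ⟨max lam 0, le_max_right _ _, fun B R hB S ε hε => ?_⟩
  obtain ⟨T, hfin, hT, hTS⟩ := hlam ((delta P) '' (S : Set P.M))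
    (S.finite_toSet.image _).isCompact (ε / 2) (by positivity)
  have hT' : ‖T‖ ≤ max lam 0 := hT.trans (le_max_left _ _)
  -- the compact set
  set V : Submodule ℝ P.FreeSpace := LinearMap.range T.toLinearMap with hV
  have : ProperSpace V := FiniteDimensional.proper ℝ V
  set K : Set P.FreeSpace :=
    (Subtype.val : V → P.FreeSpace) '' (Metric.closedBall (0 : V) (max lam 0 * R)) with hK
  have hKc : IsCompact K := (isCompact_closedBall (0 : V) _).image continuous_subtype_val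
  have hmem : ∀ u ∈ B, T (delta P u) ∈ K := by
    intro u hu
    refine ⟨⟨T (delta P u), ⟨delta P u, rfl⟩⟩, ?_, rfl⟩
    rw [Metric.mem_closedBall, dist_zero_right]
    change ‖T (delta P u)‖ ≤ _
    refine (T.le_of_opNorm_le hT' _).trans ?_
    exact mul_le_mul_of_nonneg_left ((norm_delta_le P u).trans (hB u hu)) (le_max_right _ _)
  obtain ⟨A, hA⟩ := net_mol P K hKc (ε / 2) (by positivity)
  have hch : ∀ u : P.M, ∃ a : P.Mol, (u ∈ B → a ∈ A ∧ ‖T (delta P u) - emb P a‖ < ε / 2) ∧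
      (u ∉ B → a = 0) := by
    intro u
    by_cases hu : u ∈ B
    · obtain ⟨a, ha, ha2⟩ := hA _ (hmem u hu)
      exact ⟨a, fun _ => ⟨ha, ha2⟩, fun h => absurd hu h⟩
    · exact ⟨0, fun h => absurd h hu, fun _ => rfl⟩
  choose a ha1 ha2 using hch
  set N : Finset P.M := A.biUnion fun b => (P.coeffs b).support with hN
  have hsupp : ∀ u, (P.coeffs (a u)).support ⊆ N := by
    intro u
    by_cases hu : u ∈ B
    · intro q hq
      exact Finset.mem_biUnion.mpr ⟨a u, (ha1 u hu).1, hq⟩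
    · rw [ha2 u hu, P.coeffs_zero]; simp
  have hsum : ∀ f : P.M → ℝ, (∀ x y, |f x - f y| ≤ dist x y) → f P.base = 0 → ∀ u,
      ∑ q ∈ N, (P.coeffs (a u)) q * f q = ext P f (emb P (a u)) := by
    intro f hf h0 u
    rw [ext_emb_real P f hf h0]
    symm
    refine Finset.sum_subset (hsupp u) fun q _ hq => ?_
    rw [Finsupp.notMem_support_iff.mp hq, zero_mul]
  have happ : ∀ f : P.M → ℝ, (∀ x y, |f x - f y| ≤ dist x y) → f P.base = 0 → ∀ u ∈ B,
      |∑ q ∈ N, (P.coeffs (a u)) q * f q - ext P f (T (delta P u))| ≤ ε / 2 := by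
    intro f hf h0 u hu
    rw [hsum f hf h0, ← map_sub]
    refine (ext_real_norm_le P f hf h0 _).trans ?_
    rw [norm_sub_rev]
    exact (ha1 u hu).2.le
  refine ⟨N, fun u q => (P.coeffs (a u)) q, ?_, ?_, ?_⟩
  · intro u q hq
    by_contra hne
    exact hq (hsupp u (Finsupp.mem_support_iff.mpr hne))
  · intro f hf h0 u hu u' hu'
    have h1 := happ f hf h0 u hu
    have h2 := happ f hf h0 u' hu'
    have h3 : |ext P f (T (delta P u)) - ext P f (T (delta P u'))| ≤ max lam 0 * dist u u' := by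
      rw [← map_sub, ← map_sub]
      refine (ext_real_norm_le P f hf h0 _).trans ?_
      refine (T.le_of_opNorm_le hT' _).trans ?_
      exact mul_le_mul_of_nonneg_left (dist_delta_le P u u') (le_max_right _ _)
    have h4 : ∑ q ∈ N, ((P.coeffs (a u)) q - (P.coeffs (a u')) q) * f q =
        (∑ q ∈ N, (P.coeffs (a u)) q * f q - ext P f (T (delta P u))) -
        (∑ q ∈ N, (P.coeffs (a u')) q * f q - ext P f (T (delta P u'))) +
        (ext P f (T (delta P u)) - ext P f (T (delta P u'))) := by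
      rw [show ∑ q ∈ N, ((P.coeffs (a u)) q - (P.coeffs (a u')) q) * f q =
        ∑ q ∈ N, (P.coeffs (a u)) q * f q - ∑ q ∈ N, (P.coeffs (a u')) q * f q by
          rw [← Finset.sum_sub_distrib]; exact Finset.sum_congr rfl fun q _ => by ring]
      ring
    rw [h4]
    rw [abs_le] at h1 h2 h3 ⊢
    constructor <;> linarith [h1.1, h1.2, h2.1, h2.2, h3.1, h3.2]
  · intro f hf h0 t ht htB
    have h1 := happ f hf h0 t htB
    have h2 : |ext P f (T (delta P t)) - f t| ≤ ε / 2 := by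
      have h3 := hTS (delta P t) ⟨t, ht, rfl⟩
      rw [← ext_real_delta P f hf h0 t, ← map_sub]
      exact (ext_real_norm_le P f hf h0 _).trans h3
    have h5 : ∑ q ∈ N, (P.coeffs (a t)) q * f q - f t =
        (∑ q ∈ N, (P.coeffs (a t)) q * f q - ext P f (T (delta P t))) +
        (ext P f (T (delta P t)) - f t) := by ring
    change |∑ q ∈ N, (P.coeffs (a t)) q * f q - f t| ≤ ε
    rw [h5]
    rw [abs_le] at h1 h2 ⊢
    constructor <;> linarith [h1.1, h1.2, h2.1, h2.2]

end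

end Crest.Agent.R115
end

-- ▼ part R115/FamBAP
section

/-!
Task T8: what the bounded approximation property gives for the parts.
-/

set_option autoImplicit false

namespace Crest.Agent.R115

open Crest.AnalysisR

namespace Fam

variable (Φ : Fam)

/-- What BAP gives: for each part and each finite set `S` of points of that part, coefficients
`c u q` supported in a common finite set `N`, almost `lam`-Lipschitz in `u` when tested on
`Test l`, and almost equal to `δ_t` for `t ∈ S`. -/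
theorem bap_cons (h : HasBAP Φ.P.FreeSpace) : ∃ lam : ℝ, ∀ (l : ℕ) (S : Finset (Φ.Pt l))
    (ε : ℝ), 0 < ε → ∃ (N : Finset (Φ.Pt l)) (c : Φ.Pt l → Φ.Pt l → ℝ),
      (∀ u q, q ∉ N → c u q = 0) ∧
      (∀ g ∈ Φ.Test l, ∀ u u' : Φ.Pt l, ∀ K : ℝ, 0 ≤ K →
        (∀ g' ∈ Φ.Test l, |g' u - g' u'| ≤ K) →
        |∑ q ∈ N, (c u q - c u' q) * g q| ≤ lam * K + ε) ∧
      (∀ t ∈ S, ∀ g ∈ Φ.Test l, |∑ q ∈ N, c t q * g q - g t| ≤ ε) := by
  classical
  obtain ⟨lam, hlam0, hlam⟩ := bap_kernel Φ.P h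
  refine ⟨lam, fun l S ε hε => ?_⟩
  have hd : ∀ x y : Φ.P.M, dist x y = Φ.d x y := Φ.dist_eq
  set inc : Φ.Pt l → Φ.P.M := fun p => (some ⟨l, p⟩ : Φ.M) with hinc
  have hinj : Function.Injective inc := by
    intro p p' hp
    have := Option.some.inj hp
    exact eq_of_heq (Sigma.mk.inj this).2
  obtain ⟨N, c, h1, h2, h3⟩ := hlam (Set.range inc) (Φ.D l) (by
    rintro _ ⟨p, rfl⟩
    rw [hd]
    exact (Φ.d_some_none l p).le) (S.image inc) ε hε
  -- test functions
  have htest : ∀ g ∈ Φ.Test l, (∀ x y : Φ.P.M, |Φ.extz l g x - Φ.extz l g y| ≤ dist x y) ∧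
      Φ.extz l g Φ.P.base = 0 := by
    intro g hg
    refine ⟨fun x y => ?_, rfl⟩
    rw [hd]
    exact Φ.le_d (Φ.extz_mem hg) x y
  set N' : Finset (Φ.Pt l) := N.preimage inc hinj.injOn with hN'
  have hsum : ∀ (b : Φ.P.M → ℝ) (g : Φ.Pt l → ℝ),
      ∑ q ∈ N, b q * Φ.extz l g q = ∑ q ∈ N', b (inc q) * g q := by
    intro b g
    have h4 : ∑ q ∈ N', b (inc q) * g q = ∑ q ∈ N', b (inc q) * Φ.extz l g (inc q) := by
      refine Finset.sum_congr rfl fun q _ => ?_
      have h5 : Φ.extz l g (inc q) = g q := Φ.extz_some l g q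
      rw [h5]
    rw [h4]
    symm
    refine Finset.sum_preimage inc N hinj.injOn (fun q => b q * Φ.extz l g q) ?_
    intro x _ hx
    have : Φ.extz l g x = 0 := by
      rcases x with _ | ⟨l', p⟩
      · rfl
      · refine Φ.extz_ne ?_ g p
        rintro rfl
        exact hx ⟨p, rfl⟩
    rw [this, mul_zero]
  refine ⟨N', fun u q => c (inc u) (inc q), ?_, ?_, ?_⟩
  · intro u q hq
    refine h1 _ _ fun hmem => hq ?_
    rw [hN', Finset.mem_preimage]; exact hmem
  · intro g hg u u' K hK hK2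
    have h5 := h2 (Φ.extz l g) (htest g hg).1 (htest g hg).2 (inc u) ⟨u, rfl⟩ (inc u') ⟨u', rfl⟩
    rw [hsum (fun q => c (inc u) q - c (inc u') q) g] at h5
    refine h5.trans ?_
    have h6 : dist (inc u) (inc u') ≤ K := by
      rw [hd]
      exact Φ.d_same_le hK2
    have := mul_le_mul_of_nonneg_left h6 hlam0
    linarith
  · intro t ht g hg
    have h5 := h3 (Φ.extz l g) (htest g hg).1 (htest g hg).2 (inc t)
      (Finset.mem_image_of_mem _ ht) ⟨t, rfl⟩
    rw [hsum (fun q => c (inc t) q) g] at h5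
    have h6 : Φ.extz l g (inc t) = g t := Φ.extz_some l g t
    rw [h6] at h5
    exact h5

end Fam

end Crest.Agent.R115
end

-- ▼ part R115/Fam
section

/-!
Row 115, track A: the glued metric space (`FamMetric.lean`), its approximation property
(`FamAP.lean`: `Fam.hasAP`) and the consequence of the bounded approximation property
(`FamBAP.lean`: `Fam.bap_cons`).
-/
end

-- ▼ part R115/Main

/-!
Task T12: final assembly of track A.
-/

set_option autoImplicit false

namespace Crest.Agent.R115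

open Finset Crest.AnalysisR

/-- the parameters -/
def rhoP (l : ℕ) : ℕ := 64 * (l + 1)
def rP (l : ℕ) : ℕ := 64 * (l + 1) * rhoP l
def hP (l : ℕ) : ℕ := 2 * rP l + 2

lemma one_le_rhoP (l : ℕ) : 1 ≤ rhoP l := by unfold rhoP; omega

lemma one_le_rP (l : ℕ) : 1 ≤ rP l := by
  unfold rP
  exact Nat.one_le_iff_ne_zero.mpr (Nat.mul_ne_zero (by omega) (by have := one_le_rhoP l; omega))

lemma le_rP (l : ℕ) : l ≤ rP l := by
  unfold rP
  have := one_le_rhoP l
  nlinarith

/-- both one-coordinate gaps with the same constant `c ≤ 1`, and the number of coordinates -/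
lemma exists_params (r h : ℕ) (hr : 1 ≤ r) (hh : 2 * r ≤ h) : ∃ (c : ℝ) (n : ℕ), 0 < c ∧ c ≤ 1 ∧
    (∀ m m' : ℕ, m ≠ m' → ∀ g : Z (G m × G m') h → ℝ,
      (∀ x : G m × G m', mark (q m) x.1 ≠ mark (q m') x.2 → g (x, none, Fin.last h) = 0) →
      c * ∑ z, g z ^ 2 ≤
        ∑ w : Step h, ∑ z, (g z - g (stepFun (prodAct (act (q m)) (act (q m'))) w z)) ^ 2) ∧
    (∀ m : ℕ, ∀ g : Z (G m × K h) h → ℝ,
      (∀ z : Z (G m × K h) h,
        r ≤ del (kap (fun x : G m × K h => mark (q m) x.1) z) z.1.2 → g z = 0) →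
      c * ∑ z, g z ^ 2 ≤
        ∑ w : Step h, ∑ z, (g z - g (stepFun (prodAct (act (q m)) (fun _ => 1)) w z)) ^ 2) ∧
    (1 - c / (4 * Fintype.card (Step h))) ^ n ≤ 1 / 4 := by
  obtain ⟨c1, hc1, H1⟩ := gap_sheets h
  obtain ⟨c2, hc2, H2⟩ := gap_terminals h r hr hh
  set c : ℝ := min 1 (min c1 c2) with hc
  have hc0 : 0 < c := lt_min one_pos (lt_min hc1 hc2)
  have hcle : c ≤ 1 := min_le_left _ _
  have hcc1 : c ≤ c1 := (min_le_right _ _).trans (min_le_left _ _)
  have hcc2 : c ≤ c2 := (min_le_right _ _).trans (min_le_right _ _)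
  have hcard : (1 : ℝ) ≤ Fintype.card (Step h) := by
    have : 0 < Fintype.card (Step h) := Fintype.card_pos_iff.mpr ⟨Sum.inr (Sum.inr ())⟩
    exact_mod_cast this
  have hq0 : 0 < c / (4 * Fintype.card (Step h)) := by positivity
  obtain ⟨n, hn⟩ := exists_pow_lt_of_lt_one (show (0 : ℝ) < 1 / 4 by norm_num)
    (show 1 - c / (4 * Fintype.card (Step h)) < 1 by linarith)
  refine ⟨c, n, hc0, hcle, ?_, ?_, hn.le⟩
  · intro m m' hmm g hg
    exact (mul_le_mul_of_nonneg_right hcc1 (Finset.sum_nonneg fun z _ => sq_nonneg _)).trans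
      (H1 m m' hmm g hg)
  · intro m g hg
    exact (mul_le_mul_of_nonneg_right hcc2 (Finset.sum_nonneg fun z _ => sq_nonneg _)).trans
      (H2 m g hg)

/-- constant of the gaps -/
noncomputable def cP (l : ℕ) : ℝ :=
  (exists_params (rP l) (hP l) (one_le_rP l) (by unfold hP; omega)).choose

/-- number of coordinates -/
noncomputable def nP (l : ℕ) : ℕ :=
  (exists_params (rP l) (hP l) (one_le_rP l) (by unfold hP; omega)).choose_spec.choose

lemma paramsP (l : ℕ) : 0 < cP l ∧ cP l ≤ 1 ∧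
    (∀ m m' : ℕ, m ≠ m' → ∀ g : Z (G m × G m') (hP l) → ℝ,
      (∀ x : G m × G m', mark (q m) x.1 ≠ mark (q m') x.2 → g (x, none, Fin.last (hP l)) = 0) →
      cP l * ∑ z, g z ^ 2 ≤
        ∑ w : Step (hP l), ∑ z, (g z - g (stepFun (prodAct (act (q m)) (act (q m'))) w z)) ^ 2) ∧
    (∀ m : ℕ, ∀ g : Z (G m × K (hP l)) (hP l) → ℝ,
      (∀ z : Z (G m × K (hP l)) (hP l),
        rP l ≤ del (kap (fun x : G m × K (hP l) => mark (q m) x.1) z) z.1.2 → g z = 0) →
      cP l * ∑ z, g z ^ 2 ≤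
        ∑ w : Step (hP l), ∑ z, (g z - g (stepFun (prodAct (act (q m)) (fun _ => 1)) w z)) ^ 2) ∧
    (1 - cP l / (4 * Fintype.card (Step (hP l)))) ^ nP l ≤ 1 / 4 :=
  (exists_params (rP l) (hP l) (one_le_rP l) (by unfold hP; omega)).choose_spec.choose_spec

lemma infinite_Pts (h n : ℕ) : Infinite (Pts h n) := by
  have : Function.Injective (fun m : ℕ =>
      (Sum.inr ⟨m, fun _ => ((0, 0), none, 0)⟩ : Pts h n)) := by
    intro m m' hm
    have := Sum.inr.inj hm
    exact congrArg Sigma.fst this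
  exact Infinite.of_injective _ this

/-- the family of test functions -/
noncomputable def fam : Fam where
  Pt l := Pts (hP l) (nP l)
  cnt l := by
    have : ∀ m, Countable (Fin (nP l) → Z (G m) (hP l)) := fun m => Finite.to_countable
    infer_instance
  inf := ⟨0, infinite_Pts _ _⟩
  ne l := (infinite_Pts _ _).nonempty
  D l := rP l
  one_le_D l := by exact_mod_cast one_le_rP l
  D_unbdd C := by
    obtain ⟨l, hl⟩ := exists_nat_ge C
    exact ⟨l, hl.trans (by exact_mod_cast le_rP l)⟩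
  Test l := TestS (hP l) (nP l) (rP l) (rhoP l)
  bdd l g hg p := hg.1 p
  const_mem l := by
    refine ⟨fun p => ?_, fun m u w e => ?_, fun m u => ?_⟩
    · rw [abs_of_nonneg (Nat.cast_nonneg _)]
    · simp
    · simp
  nconst_mem l := by
    refine ⟨fun p => ?_, fun m u w e => ?_, fun m u => ?_⟩
    · rw [abs_neg, abs_of_nonneg (Nat.cast_nonneg _)]
    · simp
    · simp
  small_mem l g hg := small_mem_TestS (one_le_rP l) (one_le_rhoP l) g hg

theorem not_hasBAP : ¬ HasBAP fam.P.FreeSpace := by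
  classical
  intro hB
  obtain ⟨lam, hlam⟩ := fam.bap_cons hB
  obtain ⟨l, hl⟩ := exists_nat_ge lam
  obtain ⟨N, C, hN, hLip, hT⟩ := hlam l
    ((Finset.univ : Finset (Fin (nP l) → K (hP l))).image Sum.inl) (1 / 4) (by norm_num)
  obtain ⟨hc0, hc1, hgS, hgT, hn⟩ := paramsP l
  refine core (l + 1) (by omega) (rhoP l) (rP l) (hP l) rfl rfl rfl (cP l) hc0 hc1 hgS hgT
    (nP l) hn N C hN ?_ ?_
  · intro g hg u u' M hM H
    refine (hLip g hg u u' M hM H).trans ?_
    have : lam * M ≤ ((l + 1 : ℕ) : ℝ) * M :=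
      mul_le_mul_of_nonneg_right (hl.trans (by push_cast; linarith)) hM
    linarith
  · intro b g hg
    exact hT (Sum.inl b) (Finset.mem_image_of_mem _ (Finset.mem_univ b)) g hg

theorem main : ∃ P : Crest.AnalysisR.PointedMetric, P.IsCountableSeparatedUnboundedNonproper ∧
    HasAP P.FreeSpace ∧ ¬ HasBAP P.FreeSpace :=
  ⟨fam.P, fam.isCSUN, fam.hasAP, not_hasBAP⟩

end Crest.Agent.R115
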